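import Crest.Agent.R269.G.Basic

/-! # Row 269, block G: a rational function that is analytic at a point is regular there -/

set_option autoImplicit false
set_option linter.unusedSectionVars false
set_option linter.unusedVariables false

noncomputable section

namespace Crest.Agent.R269.G

open Set Filter Topology Matrix
open Crest.AlgGeometry.ProjEmb

/-- Taylor polynomials: `HasFPowerSeriesAt.isBigO_sub_partialSum_pow`; `x ↦ p j (fun _ => x - y)` is a polynomial (expand
`x - y = ∑ (x i - y i) • single i 1` with `ContinuousMultilinearMap.map_sum`/`map_smul_univ`). -/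
theorem exists_taylor {m : ℕ} {g : Cn m → ℂ} {y : Cn m} (hg : AnalyticAt ℂ g y) (k : ℕ) :
    ∃ (T : MvPolynomial (Fin m) ℂ) (C : ℝ), ∀ᶠ x in 𝓝 y, ‖g x - ev T x‖ ≤ C * ‖x - y‖ ^ k := by
  obtain ⟨p, hp⟩ := hg
  have key : ∀ j, ∃ T : MvPolynomial (Fin m) ℂ, ∀ x, p j (fun _ => x - y) = ev T x := by
    intro j
    refine ⟨∑ r : Fin j → Fin m, (∏ l, (MvPolynomial.X (r l) - MvPolynomial.C (y (r l)))) *
      MvPolynomial.C (p j fun l => EuclideanSpace.single (r l) 1), fun x => ?_⟩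
    have h1 : x - y = ∑ i, (x i - y i) • EuclideanSpace.single i (1 : ℂ) := by
      ext i
      simp [Pi.single_apply]
    rw [h1, ContinuousMultilinearMap.map_sum (g := fun _ i => (x i - y i) • EuclideanSpace.single i (1 : ℂ))]
    simp [ev, ContinuousMultilinearMap.map_smul_univ]
  choose T hT using key
  obtain ⟨C, hC⟩ := (hp.isBigO_sub_partialSum_pow k).bound
  have h2 : Tendsto (fun x : Cn m => x - y) (𝓝 y) (𝓝 0) := by
    simpa using (continuous_sub_right y).tendsto y
  refine ⟨∑ j ∈ Finset.range k, T j, C, (h2.eventually hC).mono fun x hx => ?_⟩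
  simpa [FormalMultilinearSeries.partialSum, hT, ev] using hx

/-- Krull in `R / 𝔞` (`Ideal.mem_iInf_smul_pow_eq_bot_iff`) -/
theorem krull {R : Type} [CommRing R] [IsNoetherianRing R] (𝔞 𝔪 : Ideal R) {P : R} (h : ∀ k, P ∈ 𝔞 ⊔ 𝔪 ^ k) :
    ∃ r ∈ 𝔪, (1 - r) * P ∈ 𝔞 := by
  obtain ⟨r, hr⟩ := (Ideal.mem_iInf_smul_pow_eq_bot_iff 𝔪 (M := R ⧸ 𝔞) (Ideal.Quotient.mk 𝔞 P)).1
    (Submodule.mem_iInf _ |>.2 fun k => by
      obtain ⟨a, ha, b, hb, rfl⟩ := Submodule.mem_sup.1 (h k)
      rw [map_add, Ideal.Quotient.eq_zero_iff_mem.2 ha, zero_add]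
      rw [← mul_one b]
      exact Submodule.smul_mem_smul hb (Submodule.mem_top (x := Ideal.Quotient.mk 𝔞 1)))
  refine ⟨r, r.2, ?_⟩
  rw [sub_mul, one_mul]
  exact Ideal.Quotient.eq.1 hr.symm

/-- write `H` as the sum of its components -/
theorem comp_mul {σ : Type} {P : MvPolynomial σ ℂ} {k : ℕ} (hP : P.IsHomogeneous k) (H : MvPolynomial σ ℂ) (d : ℕ) :
    MvPolynomial.homogeneousComponent (d + k) (H * P) = MvPolynomial.homogeneousComponent d H * P := by
  conv_lhs => rw [← H.sum_homogeneousComponent]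
  conv_rhs => rw [← H.sum_homogeneousComponent]
  rw [Finset.sum_mul, map_sum, map_sum, Finset.sum_mul]
  refine Finset.sum_congr rfl fun j _ => ?_
  rw [MvPolynomial.homogeneousComponent_of_mem ((H.homogeneousComponent_isHomogeneous j).mul hP),
    MvPolynomial.homogeneousComponent_of_mem (H.homogeneousComponent_isHomogeneous j)]
  simp

variable {N n : ℕ} {X : Geo N n}

/-- `P - Q T_k ∈ I + 𝔪 ^ k` (`exists_taylor`, `mem_pow_of_order`), `krull` with `𝔞 = I ⊔ span {Q}`: `H₀ P - G₀ Q ∈ I`, `H₀ y = 1`; a component `H` of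
`H₀` has `H y ≠ 0` (`comp_mul`, `X.sm.homogeneous`).  Near `y` on `Y`, `Q · (g H - G) = 0`; `g H - G` is continuous near `y` and `Q ≠ 0`
frequently near every point of `Y` (`irred`, `eventually_eventually_nhdsWithin`, `AnalyticAt.eventually_analyticAt`). -/
theorem reg {y : Cn (N + 1)} (hy : y ∈ X.Y) {P Q : HomCoordRing N} {k : ℕ} (hP : P.IsHomogeneous k)
    (hQ : Q.IsHomogeneous k) (hQI : Q ∉ X.I) {g : Cn (N + 1) → ℂ} (hg : AnalyticAt ℂ g y)
    (h : ∀ᶠ x in 𝓝[X.Y] y, ev Q x * g x = ev P x) :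
    ∃ (d : ℕ) (G H : HomCoordRing N), G.IsHomogeneous d ∧ H.IsHomogeneous d ∧ ev H y ≠ 0 ∧ H * P - G * Q ∈ X.I ∧
      ∀ᶠ x in 𝓝[X.Y] y, g x * ev H x = ev G x := by
  have h1 : ∀ j, P ∈ (X.I ⊔ Ideal.span {Q}) ⊔ RingHom.ker (MvPolynomial.eval y.ofLp) ^ j := by
    intro j
    obtain ⟨T, C, hT⟩ := exists_taylor hg j
    have h2 : P - T * Q ∈ X.I ⊔ RingHom.ker (MvPolynomial.eval y.ofLp) ^ j := by
      refine X.mem_pow_of_order hy (C := (‖ev Q y‖ + 1) * C) ?_
      filter_upwards [h, hT.filter_mono nhdsWithin_le_nhds, ((analyticAt_ev Q y).continuousAt.norm.eventually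
        (gt_mem_nhds (lt_add_one _))).filter_mono nhdsWithin_le_nhds] with x h1 h2 h3
      have h4 : ev (P - T * Q) x = ev Q x * (g x - ev T x) := by
        rw [mul_sub, h1]
        simp [ev, mul_comm]
      rw [h4, norm_mul, mul_assoc]
      exact mul_le_mul h3.le h2 (norm_nonneg _) (by positivity)
    rw [← sub_add_cancel P (T * Q)]
    exact add_mem ((sup_le_sup_right le_sup_left _ : X.I ⊔ _ ≤ _) h2) (Ideal.mem_sup_left (Ideal.mem_sup_right
      (Ideal.mul_mem_left _ _ (Ideal.mem_span_singleton_self Q))))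
  obtain ⟨r, hr, h2⟩ := krull _ _ h1
  obtain ⟨G₀, F, hF, e⟩ := Ideal.mem_span_singleton_sup.1 (sup_comm X.I _ ▸ h2)
  obtain ⟨d, -, hd⟩ : ∃ d ∈ Finset.range ((1 - r).totalDegree + 1),
      ev (MvPolynomial.homogeneousComponent d (1 - r)) y ≠ 0 := by
    refine Finset.exists_ne_zero_of_sum_ne_zero ?_
    simp only [ev]
    rw [← map_sum, MvPolynomial.sum_homogeneousComponent, map_sub, RingHom.mem_ker.1 hr]
    simp
  have h3 := X.sm.homogeneous F hF (d + k)
  rw [eq_sub_of_add_eq' e, map_sub, comp_mul hP, comp_mul hQ] at h3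
  refine ⟨d, _, _, MvPolynomial.homogeneousComponent_isHomogeneous d G₀,
    MvPolynomial.homogeneousComponent_isHomogeneous d (1 - r), hd, h3, ?_⟩
  filter_upwards [eventually_eventually_nhdsWithin.2 h, self_mem_nhdsWithin,
    hg.eventually_analyticAt.filter_mono nhdsWithin_le_nhds] with x h4 hx h5
  by_contra hne
  have h6 := ((h5.continuousAt.mul (analyticAt_ev _ x).continuousAt).sub
    (analyticAt_ev _ x).continuousAt).eventually_ne (sub_ne_zero.2 hne)
  obtain ⟨x', h7, h8, h9, h10⟩ := ((X.irred hQI hx).and_eventually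
    (h4.and ((h6.filter_mono nhdsWithin_le_nhds).and self_mem_nhdsWithin))).exists
  have h11 := ev_eq_zero h10 h3
  simp only [ev, map_sub, map_mul] at h7 h8 h11
  refine h9 (mul_left_cancel₀ h7 ?_)
  simp only [Pi.sub_apply, Pi.mul_apply, ev, map_sub]
  linear_combination h11 + (MvPolynomial.eval x'.ofLp (MvPolynomial.homogeneousComponent d 1) -
    MvPolynomial.eval x'.ofLp (MvPolynomial.homogeneousComponent d r)) * h8

end Crest.Agent.R269.G
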