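import Crest.Agent.R269.G.Kae
import Crest.Agent.R269.G.Reg

/-! # Row 269, block G: holomorphic sections are regular pluricanonical forms -/

set_option autoImplicit false
set_option linter.unusedSectionVars false
set_option linter.unusedVariables false

noncomputable section

namespace Crest.Agent.R269.G

open Set Filter Topology Matrix
open Crest.AlgGeometry.ProjEmb

variable {N n : ℕ} {X : Geo N n} [X.I.IsPrime]

theorem chart_smul {m : ℕ} {i : Fin (N + 1)} {c : FnField X.I} (hc : c ∈ chartRing X.I i) {σ : PluriForms X.I n m}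
    (h : σ ∈ chartSections X.I n m i) : c • σ ∈ chartSections X.I n m i := by
  induction h using Submodule.span_induction with
  | mem x hx =>
    obtain ⟨c', a, rfl⟩ := hx
    exact Submodule.subset_span ⟨⟨c, hc⟩ * c', a, by rw [smul_smul]; rfl⟩
  | zero => simp
  | add x x' _ _ hx hx' => rw [smul_add]; exact add_mem hx hx'
  | smul t x _ hx => rw [smul_comm]; exact Submodule.smul_mem _ _ hx

/-- `𝔞 = {H | dh i H • σ ∈ chartSections i}` is an ideal containing `I` and `X i - 1`; at a point `z` of its zero locus `z ∈ Y`, `z i = 1`,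
`exists_beta` gives `β 0 = i`, `σ = u • th β`, `u * dh H = dh G`, `H z ≠ 0`, `H ∈ 𝔞`.  Nullstellensatz
(`MvPolynomial.vanishingIdeal_zeroLocus_eq_radical`). -/
theorem mem_sections {m : ℕ} {σ : PluriForms X.I n m}
    (h : ∀ y f β, GdAt X y f β → ∃ u ∈ O X y, σ = u • th X m β) : σ ∈ pluricanonicalSections X.I n m := by
  simp only [pluricanonicalSections, Submodule.mem_iInf]
  intro i hi
  let 𝔞 : Ideal (HomCoordRing N) :=
    { carrier := {H | dh X i H • σ ∈ chartSections X.I n m i}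
      add_mem' := fun {a b} ha hb => by
        change dh X i (a + b) • σ ∈ chartSections X.I n m i
        rw [map_add, add_smul]; exact add_mem ha hb
      zero_mem' := by
        change dh X i 0 • σ ∈ chartSections X.I n m i
        simp
      smul_mem' := fun c {a} ha => by
        change dh X i (c * a) • σ ∈ chartSections X.I n m i
        rw [map_mul, mul_smul]; exact chart_smul (dh_mem_chart i c) ha }
  have h0 : ∀ H, dh X i H = 0 → H ∈ 𝔞 := fun H hH => by
    change dh X i H • σ ∈ chartSections X.I n m i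
    rw [hH, zero_smul]; exact zero_mem _
  have htop : 𝔞 = ⊤ := by
    by_contra hne
    obtain ⟨𝔪, hm, hle⟩ := Ideal.exists_le_maximal _ hne
    obtain ⟨z, rfl⟩ := MvPolynomial.isMaximal_iff_eq_vanishingIdeal_singleton.1 hm
    have hz : ∀ H ∈ 𝔞, MvPolynomial.eval z H = 0 := fun H hH => by
      have := (MvPolynomial.mem_vanishingIdeal_singleton_iff _ _).1 (hle hH)
      rwa [MvPolynomial.aeval_eq_eval] at this
    have hi1 : z i = 1 := by
      have := hz (MvPolynomial.X i - 1) (h0 _ (by rw [map_sub, dh_X, ratio_self hi, map_one, sub_self]))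
      simpa [sub_eq_zero] using this
    have hy : (WithLp.toLp 2 z : Cn (N + 1)) ∈ X.Y :=
      X.mem_Y_iff.2 ⟨fun e => by simpa [hi1] using congrArg (fun v : Cn (N + 1) => v i) e,
        fun F hF => hz F (h0 F (dh_of_mem hi hF))⟩
    obtain ⟨f, β, rfl, hd⟩ := X.exists_beta hy (i := i) (by simp [hi1])
    obtain ⟨u, ⟨k, G, H, hG, hH, hH0, e⟩, rfl⟩ := h _ f β ⟨hy, by simp [hi1], hd⟩
    refine hH0 (hz H ?_)
    change dh X (β 0) H • u • th X m β ∈ chartSections X.I n m (β 0)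
    rw [smul_smul, mul_comm, (rep_iff hi hG hH).1 e]
    refine chart_smul (dh_mem_chart _ G) (Submodule.subset_span
      ⟨1, fun _ l => ⟨w X β l, Algebra.subset_adjoin ⟨_, rfl⟩⟩, ?_⟩)
    rw [OneMemClass.coe_one, one_smul]; rfl
  have h1 : (1 : HomCoordRing N) ∈ 𝔞 := htop ▸ Submodule.mem_top
  change dh X i 1 • σ ∈ chartSections X.I n m i at h1
  rwa [map_one, one_smul] at h1

/-- Fix `Gd f₀ β₀`, `Q s_{f₀} = P` (`stF1`), `σ = (dh P / (dh Q * dh (dP f₀ β₀) ^ m)) • th β₀`, `dh = dh (β₀ 0)`.  At a good `(y, f, β)`: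
`P' = P x_{β 0} ^ (m (n+1))`, `Q' = Q (dP f₀ β) ^ m ∉ I` (`Gd.mix`), `u = dh P' / dh Q'` (`th_change`), `reg`. -/
theorem exists_form {m : ℕ} {s : X.Fi → Cn (N + 1) → ℂ} (hs : s ∈ X.Sec m 0) :
    ∃ σ : PluriForms X.I n m, ∀ y f β, GdAt X y f β → ∀ g, AnalyticAt ℂ g y → s f =ᶠ[𝓝[X.Y] y] g →
      ∃ u, σ = u • th X m β ∧ Germ X y u fun x => g x * (x (β 0) ^ (n + 1) / X.dl f (sel β) x) ^ m := by
  obtain ⟨y₀, hy₀⟩ := X.Y_nonempty
  obtain ⟨f₀, β₀, h₀⟩ := exists_gdAt hy₀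
  replace h₀ := h₀.gd
  obtain ⟨P, Q, p, q, hQ, hPh, hQh, hdeg, hPQ⟩ := stF1 X (hs.1 f₀)
  refine ⟨(dh X (β₀ 0) P / (dh X (β₀ 0) Q * dh X (β₀ 0) (dP X f₀ β₀) ^ m)) • th X m β₀, fun y f β h g hg e => ?_⟩
  have hmix := h₀.mix h.gd
  have hQ' : (Q * dP X f₀ β ^ m).IsHomogeneous (q + X.c * (X.e - 1) * m) := hQh.mul ((dP_hom X f₀ β).pow m)
  have hP' : (P * MvPolynomial.X (β 0) ^ ((n + 1) * m)).IsHomogeneous (q + X.c * (X.e - 1) * m) := by
    rcases hdeg with hdeg | rfl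
    · have h1 := hPh.mul (MvPolynomial.isHomogeneous_X_pow (R := ℂ) (β 0) ((n + 1) * m))
      convert h1 using 1
      have h2 := X.epos
      zify [h2]
      rw [hdeg, Geo.dK]; ring
    · rw [zero_mul]; exact MvPolynomial.isHomogeneous_zero _ _ _
  have hQI : Q * dP X f₀ β ^ m ∉ X.I := fun hI =>
    (X.prime.mem_or_mem hI).elim hQ fun h' => hmix.d (X.prime.mem_of_pow_mem _ h')
  have hρ : AnalyticAt ℂ (fun x : Cn (N + 1) => g x * (x (β 0) ^ (n + 1) / X.dl f (sel β) x) ^ m) y :=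
    hg.mul (((((EuclideanSpace.proj (β 0) : Cn (N + 1) →L[ℂ] ℂ).analyticAt y).pow _).div
        (X.analyticAt_dl f _ y) h.d).pow _)
  obtain ⟨d, G, H, hG, hH, hH0, hI, hev⟩ := reg h.mem hP' hQ' hQI hρ (by
    have h1 : ∀ᶠ x in 𝓝[X.Y] y, X.dl f (sel β) x ≠ 0 :=
      nhdsWithin_le_nhds ((X.analyticAt_dl f _ y).continuousAt.eventually_ne h.d)
    filter_upwards [e, h1, self_mem_nhdsWithin] with x h2 h3 hx
    have h4 := hs.2 x hx f₀ f β
    have h5 := hPQ x hx
    have e1 : ev (Q * dP X f₀ β ^ m) x = ev Q x * X.dl f₀ (sel β) x ^ m := by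
      rw [← ev_dP]; simp [ev]
    have e2 : ev (P * MvPolynomial.X (β 0) ^ ((n + 1) * m)) x = ev P x * (x (β 0) ^ (n + 1)) ^ m := by
      simp [ev, pow_mul]
    rw [e1, e2, ← h2, ← h5, div_pow]
    field_simp
    linear_combination (-(ev Q x * (x (β 0) ^ (n + 1)) ^ m)) * h4)
  have hd₀ := dh_ne h₀.x (dP_hom X f₀ β₀) h₀.d
  have hd := dh_ne h₀.x (dP_hom X f₀ β) hmix.d
  have hq := dh_ne h₀.x hQh hQ
  have hr := ratio_ne h₀.x h.gd.x
  refine ⟨dh X (β₀ 0) (P * MvPolynomial.X (β 0) ^ ((n + 1) * m)) / dh X (β₀ 0) (Q * dP X f₀ β ^ m), ?_,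
    d, G, H, hG, hH, hH0, ?_, hev⟩
  · rw [th_change h₀ h.gd.x, smul_smul]
    congr 1
    simp only [map_mul, map_pow, dh_X, div_pow, mul_pow, pow_mul]
    field_simp
  · rw [rep_iff h₀.x hG hH, div_mul_eq_mul_div, div_eq_iff (dh_ne h₀.x hQ' hQI)]
    have := dh_of_mem h₀.x hI
    rw [map_sub, map_mul, map_mul _ G, sub_eq_zero] at this
    rw [← this, mul_comm]

end Crest.Agent.R269.G
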