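import Crest.Agent.R269.G.Stalk

/-! # Row 269, block G: second order vanishing -/

set_option autoImplicit false
set_option linter.unusedSectionVars false
set_option linter.unusedVariables false

noncomputable section

namespace Crest.Agent.R269.G

open Set Filter Topology Matrix
open Crest.AlgGeometry.ProjEmb

/-- `G - G(y) - ∑ ∂_j G (y) (x_j - y_j) ∈ 𝔪²` by induction on `G` -/
theorem mem_sq {m : ℕ} {G : MvPolynomial (Fin m) ℂ} {y : Cn m} (h0 : ev G y = 0)
    (h1 : ∀ j, ev (MvPolynomial.pderiv j G) y = 0) : G ∈ RingHom.ker (MvPolynomial.eval y.ofLp) ^ 2 := by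
  classical
  have hX : ∀ j, (MvPolynomial.X j - MvPolynomial.C (y j) : MvPolynomial (Fin m) ℂ) ∈
      RingHom.ker (MvPolynomial.eval y.ofLp) := fun j => by simp [RingHom.mem_ker]
  have key : ∀ G : MvPolynomial (Fin m) ℂ, G - MvPolynomial.C (ev G y) -
      ∑ j, MvPolynomial.C (ev (MvPolynomial.pderiv j G) y) * (MvPolynomial.X j - MvPolynomial.C (y j)) ∈
        RingHom.ker (MvPolynomial.eval y.ofLp) ^ 2 := by
    intro G
    induction G using MvPolynomial.induction_on with
    | C a => simp [ev]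
    | add p q hp hq =>
      convert add_mem hp hq using 1
      simp only [map_add, alg1_ev_add, add_mul, Finset.sum_add_distrib]
      ring
    | mul_X p i hp =>
      have h2 : (∑ j, MvPolynomial.C (ev (MvPolynomial.pderiv j p) y) *
          (MvPolynomial.X j - MvPolynomial.C (y j))) * (MvPolynomial.X i - MvPolynomial.C (y i)) ∈
          RingHom.ker (MvPolynomial.eval y.ofLp) ^ 2 := by
        rw [sq]
        exact Ideal.mul_mem_mul (Ideal.sum_mem _ fun j _ => Ideal.mul_mem_left _ _ (hX j)) (hX i)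
      convert add_mem (Ideal.mul_mem_right (MvPolynomial.X i) _ hp) h2 using 1
      have e : ∀ j, MvPolynomial.C (ev (MvPolynomial.pderiv j (p * MvPolynomial.X i)) y) *
          (MvPolynomial.X j - MvPolynomial.C (y j) : MvPolynomial (Fin m) ℂ) =
          MvPolynomial.C (y i) * (MvPolynomial.C (ev (MvPolynomial.pderiv j p) y) *
            (MvPolynomial.X j - MvPolynomial.C (y j))) +
          if i = j then MvPolynomial.C (ev p y) * (MvPolynomial.X j - MvPolynomial.C (y j)) else 0 := by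
        intro j
        rw [MvPolynomial.pderiv_mul, alg1_ev_add, alg1_ev_mul, alg1_ev_mul, alg1_ev_X,
          MvPolynomial.pderiv_X, Pi.single_apply]
        split_ifs <;> simp [ev] <;> ring
      simp only [e, Finset.sum_add_distrib, Finset.sum_ite_eq, Finset.mem_univ, if_true,
        ← Finset.mul_sum, alg1_ev_mul, alg1_ev_X, map_mul]
      ring
  simpa [h0, h1] using key G

/-- the differential as a linear map -/
def tan_devL {m : ℕ} (G : MvPolynomial (Fin m) ℂ) (y : Cn m) : Cn m →ₗ[ℂ] ℂ := fderiv ℂ (ev G) y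

theorem tan_devL_apply {m : ℕ} (G : MvPolynomial (Fin m) ℂ) (y v : Cn m) : tan_devL G y v = dev G y v :=
  fderiv_ev G y v

theorem tan_dev_single {m : ℕ} (G : MvPolynomial (Fin m) ℂ) (y : Cn m) (i : Fin m) :
    dev G y (EuclideanSpace.single i 1) = ev (MvPolynomial.pderiv i G) y := by
  simp [dev]

theorem tan_dev_sub {m : ℕ} (G H : MvPolynomial (Fin m) ℂ) (y v : Cn m) :
    dev (G - H) y v = dev G y v - dev H y v := by
  simp [dev, ev, sub_mul, Finset.sum_sub_distrib]

theorem tan_euler {m k : ℕ} {G : MvPolynomial (Fin m) ℂ} (hG : G.IsHomogeneous k) (y : Cn m) :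
    dev G y y = k * ev G y := by
  have := congrArg (MvPolynomial.eval y.ofLp) hG.sum_X_mul_pderiv
  simp only [map_sum, map_mul, MvPolynomial.eval_X, nsmul_eq_mul, map_natCast] at this
  rw [ev, ← this, dev]
  exact Finset.sum_congr rfl fun i _ => mul_comm _ _

variable {N n : ℕ} {X : Geo N n}

/-- a functional vanishing on `ker J` is a combination of the rows (`mem_span_of_iInf_ker_le_ker`); subtract `∑ a_j F_j` -/
theorem mem_sup_sq {y : Cn (N + 1)} (hy : y ∈ X.Y) {G : HomCoordRing N} (h0 : ev G y = 0)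
    (h1 : ∀ v ∈ X.T y, dev G y v = 0) : G ∈ X.I ⊔ RingHom.ker (MvPolynomial.eval y.ofLp) ^ 2 := by
  have h2 : tan_devL G y ∈ Submodule.span ℂ (range fun j => tan_devL (X.F j) y) := by
    refine mem_span_of_iInf_ker_le_ker fun v hv => ?_
    simp only [Submodule.mem_iInf, LinearMap.mem_ker, tan_devL_apply] at hv ⊢
    exact h1 v (funext fun j => (X.J_mulVec y v j).trans (hv j))
  obtain ⟨a, ha⟩ := (Submodule.mem_span_range_iff_exists_fun ℂ).1 h2
  have e : G = ∑ j, MvPolynomial.C (a j) * X.F j + (G - ∑ j, MvPolynomial.C (a j) * X.F j) := by ring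
  rw [e]
  refine add_mem (Ideal.mem_sup_left (Ideal.sum_mem _ fun j _ => Ideal.mul_mem_left _ _ (X.mem j)))
    (Ideal.mem_sup_right (mem_sq ?_ fun i => ?_))
  · have := hy.2
    simp only [ev] at this h0 ⊢
    simp [this, h0]
  · have := LinearMap.congr_fun ha (EuclideanSpace.single i 1)
    simp only [LinearMap.sum_apply, LinearMap.smul_apply, tan_devL_apply, tan_dev_single,
      smul_eq_mul] at this
    simp only [ev] at this ⊢
    simp [← this]

variable [X.I.IsPrime]

/-- `mem_sup_sq` at the point `(y i)⁻¹ • y` (`ev_smul`, `T_smul`, the `pderiv j G` are homogeneous), `dh_of_mem`, `dh_mem_M1`,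
`Submodule.mul_induction_on` -/
theorem dh_mem_M2 {y : Cn (N + 1)} (hy : y ∈ X.Y) {i : Fin (N + 1)} (hi : y i ≠ 0) {G : HomCoordRing N} {k : ℕ}
    (hG : G.IsHomogeneous k) (h0 : ev G y = 0) (h1 : ∀ v ∈ X.T y, dev G y v = 0) : dh X i G ∈ M2 X y := by
  have ht : (y i)⁻¹ ≠ 0 := inv_ne_zero hi
  have h2 := mem_sup_sq (X.smul_mem_Y hy ht) (G := G) (by rw [ev_smul hG, h0, mul_zero]) (fun v hv => by
    rw [X.T_smul y ht] at hv
    have := h1 v hv
    simp only [dev] at this ⊢
    simp only [ev_smul hG.pderiv, mul_assoc, ← Finset.mul_sum, this, mul_zero])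
  obtain ⟨a, ha, b, hb, rfl⟩ := Submodule.mem_sup.1 h2
  rw [map_add, dh_of_mem (X_notMem hy hi) ha, zero_add]
  rw [sq] at hb
  refine Submodule.mul_induction_on (C := fun b => dh X i b ∈ M2 X y) hb (fun c hc c' hc' => ?_)
    fun c c' hc hc' => ?_
  · exact Submodule.subset_span ⟨_, dh_mem_M1 hy hi hc, _, dh_mem_M1 hy hi hc', map_mul _ _ _⟩
  · rw [map_add]
    exact add_mem hc hc'

/-- `u = G / H`, `lam = dG(y) / H(y)` (Euler gives `lam y = 0`).  If `u' = G' / H'` with `g H' = G'` near `y` on `Y` then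
`dG' = H'(y) dg` on `T y` (`fderiv_congr_Y`); `u - u' = dh (G H' - G' H) * (dh (H H'))⁻¹`, `dh_mem_M2`. -/
theorem exists_lam {y : Cn (N + 1)} (hy : y ∈ X.Y) {u : FnField X.I} (hu : u ∈ M1 X y) :
    ∃ lam : Cn (N + 1) →L[ℂ] ℂ, lam y = 0 ∧ ∀ (u' : FnField X.I) (g : Cn (N + 1) → ℂ), Germ X y u' g →
      DifferentiableAt ℂ g y → g y = 0 → (∀ v ∈ X.T y, fderiv ℂ g y v = lam v) → u - u' ∈ M2 X y := by
  obtain ⟨k, G, H, hG, hH, hH0, hG0, hu⟩ := hu
  change ev H y ≠ 0 at hH0
  change ev G y = 0 at hG0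
  obtain ⟨i, hi⟩ : ∃ i, y i ≠ 0 := by
    by_contra h
    push Not at h
    exact hy.1 (by ext i; exact h i)
  have hiI := X_notMem hy hi
  refine ⟨(ev H y)⁻¹ • fderiv ℂ (ev G) y, ?_, ?_⟩
  · simp [fderiv_ev, tan_euler hG, hG0]
  rintro u' g ⟨k', G', H', hG', hH', hH0', hu', hg⟩ hd hg0 hl
  have hG0' : ev G' y = 0 := by rw [← hg.self_of_nhdsWithin hy, hg0, zero_mul]
  have hdG' : ∀ v ∈ X.T y, dev G' y v = ev H' y * ((ev H y)⁻¹ * dev G y v) := by
    intro v hv
    have hdH := (analyticAt_ev H' y).differentiableAt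
    have := X.fderiv_congr_Y hy (hd.mul hdH) (analyticAt_ev G' y).differentiableAt hg hv
    rw [fderiv_ev, fderiv_mul hd hdH] at this
    rw [← this]
    simp [hg0, hl v hv, fderiv_ev]
  have hP := dh_mem_M2 hy hi ((hG.mul hH').sub (hH.mul hG'))
    (by
      simp only [ev] at hG0 hG0' ⊢
      simp [hG0, hG0'])
    (fun v hv => by
      rw [tan_dev_sub, alg1_dev_mul, alg1_dev_mul, hG0, hG0', hdG' v hv]
      field_simp
      ring)
  have hHH : ev (H * H') y ≠ 0 := by
    rw [alg1_ev_mul]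
    exact mul_ne_zero hH0 hH0'
  have := M2.mul (inv_dh_mem_O hy hi (hH.mul hH') hHH) hP
  convert this using 1
  have e1 := (rep_iff hiI hG hH).1 hu
  have e2 := (rep_iff hiI hG' hH').1 hu'
  have n1 := dh_ne hiI hH fun h => hH0 (ev_eq_zero hy h)
  have n2 := dh_ne hiI hH' fun h => hH0' (ev_eq_zero hy h)
  simp only [map_mul, map_sub, ← e1, ← e2]
  field_simp

end Crest.Agent.R269.G
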