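import Crest.Agent.R269.G.Defs

/-! # Row 269, block G: the function field -/

set_option autoImplicit false
set_option linter.unusedSectionVars false
set_option linter.unusedVariables false

noncomputable section

namespace Crest.Agent.R269.G

open Set Filter Topology Matrix
open Crest.AlgGeometry.ProjEmb

variable {N n : ℕ} (X : Geo N n)

theorem blk_map {S S' : Type} {c : ℕ} (e : Fin (n + 1) ⊕ Fin c ≃ Fin (N + 1)) (Λ : Matrix (Fin (n + 1)) (Fin (N + 1)) S)
    (J : Matrix (Fin c) (Fin (N + 1)) S) (φ : S → S') : (blk e Λ J).map φ = blk e (Λ.map φ) (J.map φ) := by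
  ext r j
  simp only [blk, Matrix.map_apply]
  cases e.symm r <;> rfl

theorem selR_map {S S' : Type} [Zero S] [One S] [Zero S'] [One S'] (β : Fin (n + 1) → Fin (N + 1)) (φ : S → S')
    (h0 : φ 0 = 0) (h1 : φ 1 = 1) : (selR S β).map φ = selR S' β := by
  ext a i
  simp only [selR, Matrix.map_apply]
  split_ifs <;> assumption

theorem MP_map (f : X.Fi) (β : Fin (n + 1) → Fin (N + 1)) (y : Cn (N + 1)) :
    (MP X f β).map (fun G => ev G y) = X.MM f (sel β) y := by
  rw [MP, blk_map, selR_map β _ (by simp [ev]) (by simp [ev])]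
  rfl

/-- `RingHom.map_det` -/
theorem ev_dP (f : X.Fi) (β : Fin (n + 1) → Fin (N + 1)) (y : Cn (N + 1)) : ev (dP X f β) y = X.dl f (sel β) y := by
  rw [Geo.dl, ← MP_map]
  exact RingHom.map_det (MvPolynomial.eval y.ofLp) _

/-- `exists_dl_poly`, `MvPolynomial.funext` -/
theorem dP_hom (f : X.Fi) (β : Fin (n + 1) → Fin (N + 1)) : (dP X f β).IsHomogeneous (X.c * (X.e - 1)) := by
  obtain ⟨P, hP, h⟩ := X.exists_dl_poly f (sel β)
  have : dP X f β = P := MvPolynomial.funext fun x =>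
    (ev_dP X f β (WithLp.toLp 2 x)).trans (h (WithLp.toLp 2 x)).symm
  rwa [this]

/-- `dl_mul_dl`, `mem_of_vanish` -/
theorem dP_mul_dP (f f' : X.Fi) (β β' : Fin (n + 1) → Fin (N + 1)) :
    dP X f β * dP X f' β' - dP X f' β * dP X f β' ∈ X.I := by
  refine X.mem_of_vanish fun y hy => ?_
  have := X.dl_mul_dl hy f f' (sel β) (sel β')
  simp only [← ev_dP] at this
  simp only [ev, map_sub, map_mul] at this ⊢
  exact sub_eq_zero.2 this

variable {X}

theorem ev_eq_zero {y : Cn (N + 1)} (hy : y ∈ X.Y) {G : HomCoordRing N} (hG : G ∈ X.I) : ev G y = 0 := by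
  exact X.zero y hy.1 hy.2 G hG

theorem X_notMem {y : Cn (N + 1)} (hy : y ∈ X.Y) {i : Fin (N + 1)} (hi : y i ≠ 0) :
    (MvPolynomial.X i : HomCoordRing N) ∉ X.I := by
  exact fun h => hi (by simpa [ev] using ev_eq_zero hy h)

theorem GdAt.gd {y : Cn (N + 1)} {f : X.Fi} {β : Fin (n + 1) → Fin (N + 1)} (h : GdAt X y f β) : Gd X f β := by
  exact ⟨X_notMem h.mem h.x, fun hd => h.d ((ev_dP X f β y).symm.trans (ev_eq_zero h.mem hd))⟩

theorem exists_gdAt {y : Cn (N + 1)} (hy : y ∈ X.Y) : ∃ f β, GdAt X y f β := by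
  obtain ⟨i, hi⟩ : ∃ i, y i ≠ 0 := by
    by_contra! h
    exact hy.1 (by ext i; simpa using h i)
  obtain ⟨f, β, h0, h⟩ := X.exists_beta hy hi
  exact ⟨f, β, hy, h0 ▸ hi, h⟩

/-- `dP_mul_dP`, primality -/
theorem Gd.mix {f f' : X.Fi} {β β' : Fin (n + 1) → Fin (N + 1)} (h : Gd X f β) (h' : Gd X f' β') : Gd X f β' := by
  refine ⟨h'.x, fun hd => ?_⟩
  have := X.I.add_mem (dP_mul_dP X f f' β β') (X.I.mul_mem_left (dP X f' β) hd)
  rw [sub_add_cancel] at this
  exact (X.prime.mem_or_mem this).elim h.d h'.d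

variable [X.I.IsPrime]

theorem ce_eq_zero {G : HomCoordRing N} : ce X G = 0 ↔ G ∈ X.I := by
  show algebraMap (HomCoordRing N ⧸ X.I) (ConeFracField X.I) (Ideal.Quotient.mk X.I G) = 0 ↔ _
  rw [map_eq_zero_iff _ (IsFractionRing.injective _ _), Ideal.Quotient.eq_zero_iff_mem]

theorem toC_inj : Function.Injective (toC X) := (toC X).toRingHom.injective

theorem toC_ratio (i j : Fin (N + 1)) :
    toC X (fnRatio X.I i j) = ce X (MvPolynomial.X j) / ce X (MvPolynomial.X i) := rfl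

theorem dh_X (i j : Fin (N + 1)) : dh X i (MvPolynomial.X j) = fnRatio X.I i j := MvPolynomial.aeval_X _ _

theorem ratio_self {i : Fin (N + 1)} (hi : (MvPolynomial.X i : HomCoordRing N) ∉ X.I) : fnRatio X.I i i = 1 := by
  exact toC_inj (by rw [toC_ratio, div_self (mt ce_eq_zero.1 hi), map_one])

theorem ratio_ne {i j : Fin (N + 1)} (hi : (MvPolynomial.X i : HomCoordRing N) ∉ X.I)
    (hj : (MvPolynomial.X j : HomCoordRing N) ∉ X.I) : fnRatio X.I i j ≠ 0 := by
  intro h
  have := toC_ratio (X := X) i j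
  rw [h, map_zero] at this
  exact div_ne_zero (mt ce_eq_zero.1 hj) (mt ce_eq_zero.1 hi) this.symm

theorem ratio_div {i j : Fin (N + 1)} (hi : (MvPolynomial.X i : HomCoordRing N) ∉ X.I) (l : Fin (N + 1)) :
    fnRatio X.I j l = fnRatio X.I i l / fnRatio X.I i j := by
  exact toC_inj (by rw [map_div₀, toC_ratio, toC_ratio, toC_ratio, div_div_div_cancel_right₀ (mt ce_eq_zero.1 hi)])

/-- `toC (dh i G) = aeval (x_j / x_i) G` and `ce G = aeval x G`; homogeneity (`IsHomogeneous.eval₂`-type scaling: expand in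
monomials, or `MvPolynomial.IsHomogeneous.induction`) -/
theorem toC_dh {i : Fin (N + 1)} (hi : (MvPolynomial.X i : HomCoordRing N) ∉ X.I) {G : HomCoordRing N} {k : ℕ}
    (hG : G.IsHomogeneous k) : toC X (dh X i G) * ce X (MvPolynomial.X i) ^ k = ce X G := by
  have h0 : ce X (MvPolynomial.X i) ≠ 0 := mt ce_eq_zero.1 hi
  have e1 : ∀ G, toC X (dh X i G) = MvPolynomial.aeval (fun j => ce X (MvPolynomial.X j) / ce X (MvPolynomial.X i)) G :=
    fun G => by rw [dh, ← AlgHom.comp_apply, MvPolynomial.comp_aeval]; rfl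
  have e2 : ce X G = MvPolynomial.aeval (fun j => ce X (MvPolynomial.X j)) G := by
    conv_lhs => rw [MvPolynomial.aeval_unique (ce X)]
    rfl
  rw [e1, e2, MvPolynomial.aeval_def, MvPolynomial.aeval_def, MvPolynomial.eval₂_eq', MvPolynomial.eval₂_eq',
    Finset.sum_mul]
  refine Finset.sum_congr rfl fun d hd => ?_
  have hk : ∑ j, d j = k := by
    rw [hG.degree_eq_sum_deg_support hd, ← Finsupp.degree_eq_sum, Finsupp.degree_apply]
  simp only [div_pow, Finset.prod_div_distrib, Finset.prod_pow_eq_pow_sum, hk]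
  field_simp

/-- homogeneous components (`X.sm.homogeneous`, `sum_homogeneousComponent`) -/
theorem dh_of_mem {i : Fin (N + 1)} (hi : (MvPolynomial.X i : HomCoordRing N) ∉ X.I) {G : HomCoordRing N}
    (hG : G ∈ X.I) : dh X i G = 0 := by
  rw [← MvPolynomial.sum_homogeneousComponent G, map_sum]
  refine Finset.sum_eq_zero fun d _ => toC_inj ?_
  have := toC_dh hi (MvPolynomial.homogeneousComponent_isHomogeneous d G)
  rw [ce_eq_zero.2 (X.sm.homogeneous G hG d)] at this
  rw [map_zero]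
  exact (mul_eq_zero.1 this).resolve_right (pow_ne_zero _ (mt ce_eq_zero.1 hi))

theorem dh_ne {i : Fin (N + 1)} (hi : (MvPolynomial.X i : HomCoordRing N) ∉ X.I) {G : HomCoordRing N} {k : ℕ}
    (hG : G.IsHomogeneous k) (h : G ∉ X.I) : dh X i G ≠ 0 := by
  intro h0
  have := toC_dh hi hG
  rw [h0, map_zero, zero_mul] at this
  exact h (ce_eq_zero.1 this.symm)

theorem rep_iff {i : Fin (N + 1)} (hi : (MvPolynomial.X i : HomCoordRing N) ∉ X.I) {G H : HomCoordRing N} {k : ℕ}
    (hG : G.IsHomogeneous k) (hH : H.IsHomogeneous k) {u : FnField X.I} :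
    toC X u * ce X H = ce X G ↔ u * dh X i H = dh X i G := by
  rw [← toC_dh hi hG, ← toC_dh hi hH, ← mul_assoc, mul_left_inj' (pow_ne_zero _ (mt ce_eq_zero.1 hi)), ← map_mul,
    toC_inj.eq_iff]

theorem dh_mem_chart (i : Fin (N + 1)) (G : HomCoordRing N) : dh X i G ∈ chartRing X.I i := by
  rw [chartRing, Algebra.adjoin_range_eq_range_aeval]
  exact ⟨G, rfl⟩

end Crest.Agent.R269.G
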