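import Crest.Agent.R269.F.F12

/-!
# Row 269, block G: definitions (FROZEN, owner helper57)

`K = FnField I`, `L = ConeFracField I`, `ce : ℂ[x] → L`, `toC : K → L`, `dh i : ℂ[x] → K` (`x_j ↦ x_j / x_i`).
`om β = d w₁ ∧ … ∧ d wₙ` with `w_l = x_{β l} / x_{β 0}`, `th m β = om β ^ {⊗ m}`.
-/

set_option autoImplicit false
set_option linter.unusedSectionVars false
set_option linter.unusedVariables false

noncomputable section

namespace Crest.Agent.R269.G

open Set Filter Topology Matrix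
open Crest.AlgGeometry.ProjEmb

/-- the block matrix `[Λ ; J]` -/
def blk {S : Type} {N n c : ℕ} (e : Fin (n + 1) ⊕ Fin c ≃ Fin (N + 1)) (Λ : Matrix (Fin (n + 1)) (Fin (N + 1)) S)
    (J : Matrix (Fin c) (Fin (N + 1)) S) : Matrix (Fin (N + 1)) (Fin (N + 1)) S :=
  fun r => Sum.elim (fun a => Λ a) (fun i => J i) (e.symm r)

/-- the selection matrix over any ring -/
def selR (S : Type) [Zero S] [One S] {N n : ℕ} (β : Fin (n + 1) → Fin (N + 1)) :
    Matrix (Fin (n + 1)) (Fin (N + 1)) S := fun a i => if β a = i then 1 else 0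

variable {N n : ℕ} (X : Geo N n)

/-- the polynomial Jacobian matrix of the equations `f` -/
def JP (f : X.Fi) : Matrix (Fin X.c) (Fin (N + 1)) (HomCoordRing N) := fun i j => MvPolynomial.pderiv j (X.F (f i))

/-- the polynomial matrix `[sel β ; J_f]` -/
def MP (f : X.Fi) (β : Fin (n + 1) → Fin (N + 1)) : Matrix (Fin (N + 1)) (Fin (N + 1)) (HomCoordRing N) :=
  blk X.eqv (selR _ β) (JP X f)

/-- the polynomial `δ_{f β}` -/
def dP (f : X.Fi) (β : Fin (n + 1) → Fin (N + 1)) : HomCoordRing N := (MP X f β).det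

/-- generically good -/
structure Gd (f : X.Fi) (β : Fin (n + 1) → Fin (N + 1)) : Prop where
  x : (MvPolynomial.X (β 0) : HomCoordRing N) ∉ X.I
  d : dP X f β ∉ X.I

/-- good at `y` -/
structure GdAt (y : Cn (N + 1)) (f : X.Fi) (β : Fin (n + 1) → Fin (N + 1)) : Prop where
  mem : y ∈ X.Y
  x : y (β 0) ≠ 0
  d : X.dl f (sel β) y ≠ 0

variable [X.I.IsPrime]

/-- polynomials in the fraction field of the cone -/
def ce : HomCoordRing N →ₐ[ℂ] ConeFracField X.I :=
  (IsScalarTower.toAlgHom ℂ (HomCoordRing N ⧸ X.I) (ConeFracField X.I)).comp (Ideal.Quotient.mkₐ ℂ X.I)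

theorem ce_eq (G : HomCoordRing N) : coneElt X.I G = ce X G := rfl

/-- the function field in the fraction field of the cone -/
def toC : FnField X.I →ₐ[ℂ] ConeFracField X.I := (fnSubfield X.I).val

theorem toC_eq (u : FnField X.I) : u.toCone = toC X u := rfl

/-- dehomogenisation -/
def dh (i : Fin (N + 1)) : HomCoordRing N →ₐ[ℂ] FnField X.I := MvPolynomial.aeval (fnRatio X.I i)

/-- the differential -/
abbrev dd : Derivation ℂ (FnField X.I) (Ω[FnField X.I⁄ℂ]) := KaehlerDifferential.D ℂ (FnField X.I)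

/-- affine coordinates -/
def w (β : Fin (n + 1) → Fin (N + 1)) (l : Fin n) : FnField X.I := fnRatio X.I (β 0) (β l.succ)

/-- `d w₁ ∧ … ∧ d wₙ` -/
def om (β : Fin (n + 1) → Fin (N + 1)) : TopForms X.I n := wedgeD X.I n (w X β)

/-- `om β ^ {⊗ m}` -/
def th (m : ℕ) (β : Fin (n + 1) → Fin (N + 1)) : PluriForms X.I n m := pluriSymbol X.I n m fun _ => w X β

/-- the local ring -/
def O (y : Cn (N + 1)) : Subalgebra ℂ (FnField X.I) where
  carrier := stalkFn X.I y.ofLp
  mul_mem' := by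
    rintro u u' ⟨k, G, H, hG, hH, h0, h⟩ ⟨k', G', H', hG', hH', h0', h'⟩
    refine ⟨k + k', G * G', H * H', hG.mul hG', hH.mul hH', by simp [h0, h0'], ?_⟩
    simp only [ce_eq, toC_eq, map_mul] at h h' ⊢
    rw [← h, ← h']; ring
  add_mem' := by
    rintro u u' ⟨k, G, H, hG, hH, h0, h⟩ ⟨k', G', H', hG', hH', h0', h'⟩
    refine ⟨k + k', G * H' + H * G', H * H', (hG.mul hH').add (hH.mul hG'), hH.mul hH', by simp [h0, h0'], ?_⟩
    simp only [ce_eq, toC_eq, map_mul, map_add] at h h' ⊢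
    rw [← h, ← h']; ring
  algebraMap_mem' c := ⟨0, MvPolynomial.C c, 1, MvPolynomial.isHomogeneous_C _ _, MvPolynomial.isHomogeneous_one _ _,
    by simp, by
      simp only [ce_eq, toC_eq, map_one, mul_one, AlgHom.commutes]
      exact ((ce X).commutes c).symm⟩

theorem mem_O {y : Cn (N + 1)} {u : FnField X.I} : u ∈ O X y ↔ u ∈ stalkFn X.I y.ofLp := Iff.rfl

/-- the maximal ideal -/
abbrev M1 (y : Cn (N + 1)) : Set (FnField X.I) := stalkMaxFn X.I y.ofLp

/-- the square of the maximal ideal -/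
def M2 (y : Cn (N + 1)) : Submodule ℂ (FnField X.I) :=
  Submodule.span ℂ {u | ∃ c ∈ M1 X y, ∃ c' ∈ M1 X y, u = c * c'}

/-- the rational function `u` is regular at `y` and equals `h` near `y` on `Y` -/
def Germ (y : Cn (N + 1)) (u : FnField X.I) (h : Cn (N + 1) → ℂ) : Prop :=
  ∃ (k : ℕ) (G H : HomCoordRing N), G.IsHomogeneous k ∧ H.IsHomogeneous k ∧ ev H y ≠ 0 ∧
    toC X u * ce X H = ce X G ∧ ∀ᶠ x in 𝓝[X.Y] y, h x * ev H x = ev G x

end Crest.Agent.R269.G
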