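import Crest.Agent.R269.G.Basic

/-! # Row 269, block G: derivations, independence of the `d w_l` -/

set_option autoImplicit false
set_option linter.unusedSectionVars false
set_option linter.unusedVariables false

noncomputable section

namespace Crest.Agent.R269.G

open Set Filter Topology Matrix
open Crest.AlgGeometry.ProjEmb

variable {N n : ℕ} {X : Geo N n}

/-- `U` a frame at `y`, `dl f Λ y = μ f * det (Λ U)` so `Λ U` is invertible; with `a = (Λ U)⁻¹ Λ v`, `MM (v - U a) = 0`. -/
theorem mem_T_of {y : Cn (N + 1)} (hy : y ∈ X.Y) {f : X.Fi} {Λ} (h : X.dl f Λ y ≠ 0) {v : Cn (N + 1)}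
    (hv : ∀ i, dev (X.F (f i)) y v = 0) : v ∈ X.T y := by
  obtain ⟨U, hU⟩ := X.exists_frame hy
  obtain ⟨μ, -, hμ⟩ := X.exists_mu hy hU
  have hd : (Λ * U).det ≠ 0 := right_ne_zero_of_mul (hμ f Λ ▸ h)
  refine (hU.range hy).2 ⟨(Λ * U)⁻¹ *ᵥ (Λ *ᵥ v.ofLp), ?_⟩
  rw [← sub_eq_zero]
  refine Matrix.eq_zero_of_mulVec_eq_zero (M := X.MM f Λ y) h ?_
  funext r
  obtain ⟨r, rfl⟩ := X.eqv.surjective r
  rcases r with a | i
  · have : (Λ *ᵥ (v.ofLp - U *ᵥ ((Λ * U)⁻¹ *ᵥ (Λ *ᵥ v.ofLp)))) a = 0 := by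
      rw [mulVec_sub, mulVec_mulVec, mulVec_mulVec, Matrix.mul_nonsing_inv _ (Ne.isUnit hd), one_mulVec, sub_self]; rfl
    simpa [Geo.MM, mulVec] using this
  · have : (X.J y *ᵥ (v.ofLp - U *ᵥ ((Λ * U)⁻¹ *ᵥ (Λ *ᵥ v.ofLp)))) (f i) = 0 := by
      rw [mulVec_sub, mulVec_mulVec, hU.1, zero_mulVec, sub_zero, X.J_mulVec, hv]
    simpa [Geo.MM, mulVec] using this

theorem der_row (f : X.Fi) (β : Fin (n + 1) → Fin (N + 1)) (a : Fin (n + 1)) (r : Fin (n + 1) ⊕ Fin X.c) :
    ∑ j, MP X f β (X.eqv r) j * (MP X f β).adjugate j (X.eqv (Sum.inl a)) = if r = Sum.inl a then dP X f β else 0 := by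
  have := congrFun (congrFun (Matrix.mul_adjugate (MP X f β)) (X.eqv r)) (X.eqv (Sum.inl a))
  rw [Matrix.mul_apply] at this
  rw [this]
  simp [Matrix.one_apply, dP]

/-- The vector field `v j = adjugate (MP f β) j (eqv (inl a))` has `J_f v = 0` (`mul_adjugate`), so `δ · ∑ v j ∂_j G` vanishes on
`Y` (`mem_T_of`, `X.grad`), lies in `I` (`mem_of_vanish`), and `I` is prime. -/
theorem der_mem {f : X.Fi} {β : Fin (n + 1) → Fin (N + 1)} (h : dP X f β ∉ X.I) (a : Fin (n + 1)) {G : HomCoordRing N}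
    (hG : G ∈ X.I) : ∑ j, (MP X f β).adjugate j (X.eqv (Sum.inl a)) * MvPolynomial.pderiv j G ∈ X.I := by
  refine (X.prime.mem_or_mem (X.mem_of_vanish (G := dP X f β * _) fun y hy => ?_)).resolve_left h
  by_cases hd : X.dl f (sel β) y = 0
  · rw [← ev_dP] at hd
    simp only [ev, map_mul] at hd ⊢
    rw [hd, zero_mul]
  · have hT : (WithLp.toLp 2 fun j => ev ((MP X f β).adjugate j (X.eqv (Sum.inl a))) y : Cn (N + 1)) ∈ X.T y :=
      mem_T_of hy hd fun i => by
        have := congrArg (fun G => ev G y) (der_row f β a (Sum.inr i))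
        simpa [ev, dev, MP, blk, JP] using this
    have := X.grad y hy.1 hy.2 _ (fun j => by rw [← X.J_mulVec, X.mem_T.1 hT]; rfl) G hG
    simp only [ev, dev, map_mul, map_sum] at this ⊢
    rw [Finset.sum_congr rfl fun j _ => mul_comm _ _, this, mul_zero]

/-- Extension of derivations to the fraction field: `Derivation.liftKaehlerDifferential`, `IsLocalizedModule.lift` for
`KaehlerDifferential.map ℂ ℂ A L` (instance `KaehlerDifferential.isLocalizedModule_map`),
`LinearMap.extendScalarsOfIsLocalization`, `LinearMap.compDer`. -/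
theorem exists_ext {A L : Type} [CommRing A] [Algebra ℂ A] [Field L] [Algebra A L] [Algebra ℂ L] [IsScalarTower ℂ A L]
    [IsFractionRing A L] (D : Derivation ℂ A L) : ∃ D' : Derivation ℂ L L, ∀ a, D' (algebraMap A L a) = D a := by
  have := Algebra.FormallyEtale.of_isLocalization (Rₘ := L) (nonZeroDivisors A)
  have hb := KaehlerDifferential.isBaseChange_of_formallyEtale ℂ A L
  refine ⟨(hb.lift D.liftKaehlerDifferential).compDer (KaehlerDifferential.D ℂ L), fun a => ?_⟩
  change hb.lift D.liftKaehlerDifferential (KaehlerDifferential.D ℂ L (algebraMap A L a)) = _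
  rw [← KaehlerDifferential.map_D ℂ ℂ A L, hb.lift_eq, Derivation.liftKaehlerDifferential_comp_D]

variable [X.I.IsPrime]

/-- descend `∑ v j ∂_j` to `ℂ[x] / I` (`Derivation.liftOfSurjective` or by hand), then `exists_ext` -/
theorem exists_der (v : Fin (N + 1) → HomCoordRing N)
    (hv : ∀ G ∈ X.I, ∑ j, v j * MvPolynomial.pderiv j G ∈ X.I) :
    ∃ D : Derivation ℂ (ConeFracField X.I) (ConeFracField X.I), ∀ j, D (ce X (MvPolynomial.X j)) = ce X (v j) := by
  have h1 : ∀ G : HomCoordRing N, MvPolynomial.mkDerivation ℂ v G = ∑ j, v j * MvPolynomial.pderiv j G := by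
    intro G
    induction G using MvPolynomial.induction_on with
    | C a => simp
    | add p q hp hq => simp only [map_add, hp, hq, mul_add, Finset.sum_add_distrib]
    | mul_X p l hp =>
      simp only [Derivation.leibniz, hp, smul_eq_mul, mul_add, Finset.sum_add_distrib, MvPolynomial.mkDerivation_X,
        MvPolynomial.pderiv_X, Finset.mul_sum, mul_left_comm (MvPolynomial.X l)]
      congr 1
      rw [Finset.sum_eq_single l]
      · simp [mul_comm]
      · intro j _ hj; simp [hj.symm]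
      · simp
  have h2 : ∀ G, Ideal.Quotient.mkₐ ℂ X.I G = 0 → Ideal.Quotient.mkₐ ℂ X.I (MvPolynomial.mkDerivation ℂ v G) = 0 :=
    fun G hG => by
      rw [Ideal.Quotient.mkₐ_eq_mk, Ideal.Quotient.eq_zero_iff_mem] at hG ⊢
      rw [h1]; exact hv G hG
  obtain ⟨D, hD⟩ := exists_ext (L := ConeFracField X.I) ((Algebra.linearMap _ (ConeFracField X.I)).compDer
    (Derivation.liftOfSurjective (Ideal.Quotient.mkₐ_surjective ℂ X.I) h2))
  refine ⟨D, fun j => (hD (Ideal.Quotient.mkₐ ℂ X.I (MvPolynomial.X j))).trans ?_⟩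
  change algebraMap _ (ConeFracField X.I) (Derivation.liftOfSurjective (Ideal.Quotient.mkₐ_surjective ℂ X.I) h2
    (Ideal.Quotient.mkₐ ℂ X.I (MvPolynomial.X j))) = _
  rw [Derivation.liftOfSurjective_apply, MvPolynomial.mkDerivation_X]
  rfl

/-- With `D_a` of `exists_der`, `D_a x_{β b} = δ · [a = b]` (`mul_adjugate`), so `D_{l+1} (toC w_k) = [k = l] δ / x_{β 0}`.  Make `L` a
`K`-algebra through `toC`; `D ∘ toC` is a derivation `K → L` (`Derivation.compAlgebraMap`), lift it to `Ω[K⁄ℂ]`. -/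
theorem indep {f : X.Fi} {β : Fin (n + 1) → Fin (N + 1)} (h : Gd X f β) :
    LinearIndependent (FnField X.I) fun l => dd X (w X β l) := by
  refine Fintype.linearIndependent_iff.2 fun c hc l => ?_
  obtain ⟨D, hD⟩ := exists_der (X := X) _ fun G hG => der_mem h.d l.succ hG
  have h1 : ∀ b, D (ce X (MvPolynomial.X (β b))) = if b = l.succ then ce X (dP X f β) else 0 := fun b => by
    have := der_row f β l.succ (Sum.inl b)
    have e : ∀ j, MP X f β (X.eqv (Sum.inl b)) j = if β b = j then 1 else 0 := fun j => by simp [MP, blk, selR]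
    simp only [e, ite_mul, one_mul, zero_mul, Finset.sum_ite_eq, Finset.mem_univ, if_true, Sum.inl.injEq] at this
    rw [hD, this]
    split_ifs <;> simp
  letI : Algebra (FnField X.I) (ConeFracField X.I) := (toC X).toRingHom.toAlgebra
  haveI : IsScalarTower ℂ (FnField X.I) (ConeFracField X.I) :=
    IsScalarTower.of_algebraMap_eq fun c => ((toC X).commutes c).symm
  have h2 := congrArg (D.compAlgebraMap (FnField X.I)).liftKaehlerDifferential hc
  have hx : ce X (MvPolynomial.X (β 0)) ≠ 0 := fun e => h.x (ce_eq_zero.1 e)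
  have h3 : ∀ k, (D.compAlgebraMap (FnField X.I)) (w X β k) =
      if k = l then ce X (dP X f β) / ce X (MvPolynomial.X (β 0)) else 0 := fun k => by
    change D (toC X (fnRatio X.I _ _)) = _
    rw [toC_ratio, Derivation.leibniz_div, h1, h1, if_neg (Fin.succ_ne_zero l).symm]
    simp only [Fin.succ_inj, smul_eq_mul]
    split_ifs
    · field_simp; ring
    · simp
  simp only [map_sum, map_smul, Derivation.liftKaehlerDifferential_comp_D, h3, smul_ite, smul_zero,
    Finset.sum_ite_eq', Finset.mem_univ, if_true, map_zero] at h2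
  exact (smul_eq_zero.1 h2).resolve_right (div_ne_zero (fun e => h.d (ce_eq_zero.1 e)) hx)

end Crest.Agent.R269.G
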