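import Crest.Agent.R269.G.Defs

/-! # Row 269, block G: linear algebra -/

set_option autoImplicit false
set_option linter.unusedSectionVars false
set_option linter.unusedVariables false

noncomputable section

namespace Crest.Agent.R269.G

open Set Filter Topology Matrix
open Crest.AlgGeometry.ProjEmb

variable {N n c : ℕ} (e : Fin (n + 1) ⊕ Fin c ≃ Fin (N + 1))

theorem blk_inl {S : Type} (Λ : Matrix (Fin (n + 1)) (Fin (N + 1)) S) (J : Matrix (Fin c) (Fin (N + 1)) S)
    (a : Fin (n + 1)) : blk e Λ J (e (Sum.inl a)) = Λ a := by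
  simp [blk]

theorem blk_inr {S : Type} (Λ : Matrix (Fin (n + 1)) (Fin (N + 1)) S) (J : Matrix (Fin c) (Fin (N + 1)) S)
    (i : Fin c) : blk e Λ J (e (Sum.inr i)) = J i := by
  simp [blk]

theorem selR_row {S : Type} [Zero S] [One S] (β : Fin (n + 1) → Fin (N + 1)) (a : Fin (n + 1)) :
    selR S β a = Pi.single (β a) 1 := by
  ext i
  simp [selR, Pi.single_apply, eq_comm]

/-- Cramer: `adjugate M * M = det M • 1` applied to the column `dr`; the rows of `M` give `dr (β a)` and `0`. -/
theorem det_smul_eq {S Ω : Type} [CommRing S] [AddCommGroup Ω] [Module S Ω] (β : Fin (n + 1) → Fin (N + 1))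
    (J : Matrix (Fin c) (Fin (N + 1)) S) (dr : Fin (N + 1) → Ω) (hJ : ∀ i, ∑ j, J i j • dr j = 0) (h0 : dr (β 0) = 0)
    (j : Fin (N + 1)) : (blk e (selR S β) J).det • dr j =
      ∑ l : Fin n, (blk e (selR S β) J).adjugate j (e (Sum.inl l.succ)) • dr (β l.succ) := by
  have h1 : (blk e (selR S β) J).det • dr j =
      ∑ i, ((blk e (selR S β) J).adjugate * blk e (selR S β) J) j i • dr i := by
    simp [Matrix.adjugate_mul, Matrix.one_apply]
  have h2 : ∀ a, ∑ i, selR S β a i • dr i = dr (β a) := fun a => by simp [selR]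
  simp only [h1, Matrix.mul_apply, Finset.sum_smul, mul_smul]
  rw [Finset.sum_comm, ← e.sum_comp, Fintype.sum_sum_type]
  simp only [← Finset.smul_sum, blk_inl, blk_inr, hJ, h2, smul_zero, Finset.sum_const_zero, add_zero,
    Fin.sum_univ_succ, h0, zero_add]

/-- `blk (T Λ) J = (reindexed fromBlocks T 0 0 1) * blk Λ J` -/
theorem det_blk_mul {S : Type} [CommRing S] (T : Matrix (Fin (n + 1)) (Fin (n + 1)) S)
    (Λ : Matrix (Fin (n + 1)) (Fin (N + 1)) S) (J : Matrix (Fin c) (Fin (N + 1)) S) :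
    (blk e (T * Λ) J).det = T.det * (blk e Λ J).det := by
  have h : ∀ Λ : Matrix (Fin (n + 1)) (Fin (N + 1)) S, blk e Λ J = (fromRows Λ J).submatrix e.symm id := fun Λ => rfl
  have h1 : blk e (T * Λ) J = (fromBlocks T 0 0 (1 : Matrix (Fin c) (Fin c) S)).submatrix e.symm e.symm * blk e Λ J := by
    rw [h, h, Matrix.submatrix_mul_equiv, fromBlocks_mul_fromRows]
    simp
  rw [h1, det_mul, det_submatrix_equiv_self, det_fromBlocks_zero₂₁, det_one, mul_one]

variable {K Ω : Type} [Field K] [AddCommGroup Ω] [Module K Ω]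

/-- `AlternatingMap.map_vecCons`-free proof: `Module.Basis.ext_alternating`/`AlternatingMap.eq_smul_basis_det` componentwise, or
`MultilinearMap.map_sum` and `Matrix.det_apply`; see `exteriorPower.ιMulti` is an `AlternatingMap`. -/
theorem wedge_sum (v : Fin n → Ω) (A : Matrix (Fin n) (Fin n) K) :
    exteriorPower.ιMulti K n (fun k => ∑ l, A k l • v l) = A.det • exteriorPower.ιMulti K n v := by
  refine sub_eq_zero.1 ((Module.forall_dual_apply_eq_zero_iff K _).1 fun φ => ?_)
  have h := AlternatingMap.eq_smul_basis_det (Pi.basisFun K (Fin n))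
    ((φ.compAlternatingMap (exteriorPower.ιMulti K n)).compLinearMap (Fintype.linearCombination K v))
  have h1 := congrArg (fun g => g A) h
  simp only [AlternatingMap.compLinearMap_apply, LinearMap.compAlternatingMap_apply, AlternatingMap.smul_apply,
    Pi.basisFun_det_apply, Pi.basisFun_apply, Fintype.linearCombination_apply_single, one_smul, smul_eq_mul] at h1
  rw [map_sub, map_smul, smul_eq_mul, mul_comm, sub_eq_zero]
  exact h1

theorem wedge_ne {v : Fin n → Ω} (h : LinearIndependent K v) : exteriorPower.ιMulti K n v ≠ 0 := by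
  obtain ⟨g, hg⟩ := (Fintype.linearCombination K v).exists_leftInverse_of_injective
    (LinearMap.ker_eq_bot.2 (h.fintypeLinearCombination_injective))
  have hv : ∀ l, g (v l) = Pi.single l 1 := fun l => by
    simpa using LinearMap.congr_fun hg (Pi.single l 1)
  intro h0
  have h1 := exteriorPower.pairingDual_ιMulti_ιMulti (fun k => (LinearMap.proj k : (Fin n → K) →ₗ[K] K) ∘ₗ g) v
  have h2 : (Matrix.of fun i j => ((LinearMap.proj j : (Fin n → K) →ₗ[K] K) ∘ₗ g) (v i)) = 1 := by
    ext i j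
    simp [hv, Pi.single_apply, Matrix.one_apply, eq_comm]
  rw [h0, map_zero, h2, det_one] at h1
  exact zero_ne_one h1

/-- a functional with `λ x = 1`, `PiTensorProduct.lift ((MultilinearMap.mkPiAlgebra K _ K).compLinearMap fun _ => λ)` -/
theorem tprod_ne {x : Ω} (h : x ≠ 0) (m : ℕ) : PiTensorProduct.tprod K (fun _ : Fin m => x) ≠ 0 := by
  obtain ⟨φ, hφ⟩ : ∃ φ : Module.Dual K Ω, φ x ≠ 0 := by
    by_contra! h'
    exact h ((Module.forall_dual_apply_eq_zero_iff K x).1 h')
  intro h0
  have := congrArg (PiTensorProduct.lift ((MultilinearMap.mkPiAlgebra K (Fin m) K).compLinearMap fun _ => φ)) h0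
  simp [hφ] at this

/-- Put `M₀ = blk (sel β₀) J`, `V` the matrix with rows `v`, `M = blk (cons (single (β₀ 0) 1) v) J`.  By `det_smul_eq`,
`∑_j v k j • dr j = ∑_l A k l • dr (β₀ l.succ)`, `A k l = (v k ᵥ* M₀⁻¹) (e (inl l.succ))`.  `M * M₀⁻¹` has the unit rows at
`inl 0` and `inr i`, so its determinant is `det A` (reindex by `e`, `det_fromBlocks_zero₂₁`, `det_succ_row_zero`). -/
theorem wedge_blk (β₀ : Fin (n + 1) → Fin (N + 1)) (J : Matrix (Fin c) (Fin (N + 1)) K) (dr : Fin (N + 1) → Ω)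
    (hJ : ∀ i, ∑ j, J i j • dr j = 0) (h0 : dr (β₀ 0) = 0) (hd : (blk e (selR K β₀) J).det ≠ 0)
    (v : Fin n → Fin (N + 1) → K) :
    (blk e (selR K β₀) J).det • exteriorPower.ιMulti K n (fun k => ∑ j, v k j • dr j) =
      (blk e (Matrix.of (Fin.cons (Pi.single (β₀ 0) 1) v : Fin (n + 1) → Fin (N + 1) → K)) J).det •
        exteriorPower.ιMulti K n fun l => dr (β₀ l.succ) := by
  set M₀ := blk e (selR K β₀) J with hM₀
  set M := blk e (Matrix.of (Fin.cons (Pi.single (β₀ 0) 1) v : Fin (n + 1) → Fin (N + 1) → K)) J with hM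
  have hu : IsUnit M₀.det := hd.isUnit
  set A : Matrix (Fin n) (Fin n) K := Matrix.of fun k l => (v k ᵥ* M₀⁻¹) (e (Sum.inl l.succ)) with hA
  have h1 : ∀ k, ∑ j, v k j • dr j = ∑ l, A k l • dr (β₀ l.succ) := fun k => by
    have : ∀ j, dr j = ∑ l : Fin n, M₀⁻¹ j (e (Sum.inl l.succ)) • dr (β₀ l.succ) := fun j => by
      rw [← inv_smul_smul₀ hd (dr j), det_smul_eq e β₀ J dr hJ h0 j, Finset.smul_sum, Matrix.inv_def,
        Ring.inverse_eq_inv']
      simp only [Matrix.smul_apply, smul_eq_mul, mul_smul, hM₀]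
    rw [Finset.sum_congr rfl fun j _ => congrArg (v k j • ·) (this j)]
    simp only [hA, Matrix.of_apply, vecMul, dotProduct, Finset.smul_sum, Finset.sum_smul, mul_smul]
    exact Finset.sum_comm
  have hrow : ∀ r s, M (e r) = M₀ (e r) → (M * M₀⁻¹).submatrix e e r s = (1 : Matrix _ _ K) r s := fun r s h => by
    have := congrFun (congrFun (M₀.mul_nonsing_inv hu) (e r)) (e s)
    rw [submatrix_apply, Matrix.mul_apply, h, ← Matrix.mul_apply, this]
    simp [Matrix.one_apply]
  have h2 : (M * M₀⁻¹).det = A.det := by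
    rw [← det_submatrix_equiv_self e, ← fromBlocks_toBlocks ((M * M₀⁻¹).submatrix e e)]
    have e1 : ((M * M₀⁻¹).submatrix e e).toBlocks₂₁ = 0 := by
      ext i a
      simpa [toBlocks₂₁] using hrow (.inr i) (.inl a) (by rw [hM, hM₀, blk_inr, blk_inr])
    have e2 : ((M * M₀⁻¹).submatrix e e).toBlocks₂₂ = 1 := by
      ext i j
      simpa [toBlocks₂₂, Matrix.one_apply] using hrow (.inr i) (.inr j) (by rw [hM, hM₀, blk_inr, blk_inr])
    have e3 : ∀ a, ((M * M₀⁻¹).submatrix e e).toBlocks₁₁ 0 a = if a = 0 then 1 else 0 := fun a => by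
      simpa [toBlocks₁₁, Matrix.one_apply, eq_comm] using
        hrow (.inl 0) (.inl a) (by rw [hM, hM₀, blk_inl, blk_inl, selR_row]; rfl)
    rw [e1, e2, det_fromBlocks_zero₂₁, det_one, mul_one, det_succ_row_zero]
    simp only [e3, Fin.sum_univ_succ, Fin.succ_ne_zero, if_true, if_false, mul_zero, zero_mul, Finset.sum_const_zero,
      add_zero, Fin.val_zero, pow_zero, one_mul, Fin.succAbove_zero]
    congr 1
    ext k l
    simp only [submatrix_apply, toBlocks₁₁, of_apply, Matrix.mul_apply, hM, blk_inl, hA, Fin.cons_succ]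
    rfl
  have h3 : M.det = M₀.det * A.det := by
    rw [← h2, mul_comm, ← det_mul, Matrix.nonsing_inv_mul_cancel_right _ _ hu]
  simp only [h1]
  rw [wedge_sum, h3, mul_smul]

theorem blk_cons_update (a a' : Fin (N + 1) → K) (v : Fin n → Fin (N + 1) → K) (J : Matrix (Fin c) (Fin (N + 1)) K) :
    blk e (Matrix.of (Fin.cons a v : Fin (n + 1) → Fin (N + 1) → K)) J =
      (blk e (Matrix.of (Fin.cons a' v : Fin (n + 1) → Fin (N + 1) → K)) J).updateRow (e (Sum.inl 0)) a := by
  funext r
  obtain ⟨r, rfl⟩ := e.surjective r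
  rcases r with r | r
  · induction r using Fin.cases with
    | zero => rw [updateRow_self, blk_inl]; rfl
    | succ l => rw [updateRow_ne (by simp), blk_inl, blk_inl]; rfl
  · rw [updateRow_ne (by simp), blk_inr, blk_inr]

/-- `v l = (e_{β l} - (r_{β l} / r_{β 0}) e_{β 0}) / r_{β 0}` kills `r`.  The matrix with first row `e_i - e_{β 0} / r_{β 0}` kills `r ≠ 0`,
so it has determinant `0` (`Matrix.exists_mulVec_eq_zero_iff`); the determinant is additive in the row `e (inl 0)` (`det_updateRow_add`);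
`cons (e_{β 0} / r_{β 0}) v = T * sel β` with `T` lower triangular with diagonal `1 / r_{β 0}` (`det_blk_mul`, `det_of_lowerTriangular`). -/
theorem det_blk_change (β : Fin (n + 1) → Fin (N + 1)) (J : Matrix (Fin c) (Fin (N + 1)) K) (r : Fin (N + 1) → K)
    (hJ : J *ᵥ r = 0) {i : Fin (N + 1)} (hi : r i = 1) (h0 : r (β 0) ≠ 0) :
    (blk e (Matrix.of (Fin.cons (Pi.single i 1) fun l : Fin n => (r (β 0))⁻¹ • Pi.single (β l.succ) 1 -
        (r (β l.succ) / r (β 0) ^ 2) • Pi.single (β 0) 1 : Fin (n + 1) → Fin (N + 1) → K)) J).det =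
      (blk e (selR K β) J).det / r (β 0) ^ (n + 1) := by
  set v : Fin n → Fin (N + 1) → K := fun l => (r (β 0))⁻¹ • Pi.single (β l.succ) 1 -
    (r (β l.succ) / r (β 0) ^ 2) • Pi.single (β 0) 1 with hv
  have h1 : (blk e (Matrix.of (Fin.cons (Pi.single i 1 - (r (β 0))⁻¹ • Pi.single (β 0) 1) v :
      Fin (n + 1) → Fin (N + 1) → K)) J).det = 0 := by
    refine Matrix.exists_mulVec_eq_zero_iff.1 ⟨r, fun h => by simp [h] at hi, funext fun s => ?_⟩
    obtain ⟨s, rfl⟩ := e.surjective s
    rcases s with s | s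
    · induction s using Fin.cases with
      | zero =>
        simp only [mulVec, blk_inl]
        change (Pi.single i (1 : K) - (r (β 0))⁻¹ • Pi.single (β 0) 1) ⬝ᵥ r = 0
        simp [hi, h0]
      | succ l =>
        simp only [mulVec, blk_inl, of_apply, Fin.cons_succ, hv]
        change ((r (β 0))⁻¹ • Pi.single (β l.succ) (1 : K) - (r (β l.succ) / r (β 0) ^ 2) • Pi.single (β 0) 1) ⬝ᵥ r = 0
        simp only [sub_dotProduct, smul_dotProduct, single_dotProduct, one_mul, smul_eq_mul]
        field_simp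
        ring
    · simpa [mulVec, blk_inr] using congrFun hJ s
  set T : Matrix (Fin (n + 1)) (Fin (n + 1)) K := Matrix.of (Fin.cons ((r (β 0))⁻¹ • Pi.single 0 1) fun l : Fin n =>
    (r (β 0))⁻¹ • Pi.single l.succ 1 - (r (β l.succ) / r (β 0) ^ 2) • Pi.single 0 1 : Fin (n + 1) → Fin (n + 1) → K)
    with hT
  have h2 : Matrix.of (Fin.cons ((r (β 0))⁻¹ • Pi.single (β 0) 1) v : Fin (n + 1) → Fin (N + 1) → K) = T * selR K β := by
    funext a
    change _ = T a ᵥ* selR K β
    induction a using Fin.cases with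
    | zero =>
      change (r (β 0))⁻¹ • Pi.single (β 0) (1 : K) = ((r (β 0))⁻¹ • Pi.single 0 1) ᵥ* selR K β
      rw [smul_vecMul, single_one_vecMul, ← selR_row]; rfl
    | succ l =>
      change v l = ((r (β 0))⁻¹ • Pi.single l.succ 1 - (r (β l.succ) / r (β 0) ^ 2) • Pi.single 0 1) ᵥ* selR K β
      rw [sub_vecMul, smul_vecMul, smul_vecMul, single_one_vecMul, single_one_vecMul, hv]
      simp only [← selR_row]; rfl
  have h3 : T.det = (r (β 0))⁻¹ ^ (n + 1) := by
    have : T.submatrix Fin.succ Fin.succ = (r (β 0))⁻¹ • 1 := by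
      ext k l
      simp [hT, Pi.single_apply, Matrix.one_apply, eq_comm]
    rw [det_succ_row_zero, Fin.sum_univ_succ, Fin.succAbove_zero, this]
    simp [hT, pow_succ']
  rw [blk_cons_update e _ 0, ← sub_add_cancel (Pi.single i 1) ((r (β 0))⁻¹ • Pi.single (β 0) (1 : K)),
    det_updateRow_add, ← blk_cons_update, ← blk_cons_update, h1, h2, det_blk_mul, h3, zero_add, inv_pow, div_eq_inv_mul]

end Crest.Agent.R269.G
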