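import Crest.Agent.R269.G.Stalk
import Crest.Agent.R269.G.Lin
import Crest.Agent.R269.G.Der

/-! # Row 269, block G: Kähler differentials -/

set_option autoImplicit false
set_option linter.unusedSectionVars false
set_option linter.unusedVariables false

noncomputable section

namespace Crest.Agent.R269.G

open Set Filter Topology Matrix
open Crest.AlgGeometry.ProjEmb

variable {N n : ℕ} {X : Geo N n} [X.I.IsPrime] {y : Cn (N + 1)} {f : X.Fi} {β : Fin (n + 1) → Fin (N + 1)}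

theorem dd_dh (i : Fin (N + 1)) (G : HomCoordRing N) :
    dd X (dh X i G) = ∑ j, dh X i (MvPolynomial.pderiv j G) • dd X (fnRatio X.I i j) := by
  induction G using MvPolynomial.induction_on with
  | C a => simp [dh]
  | add p q hp hq => simp only [map_add, hp, hq, add_smul, Finset.sum_add_distrib]
  | mul_X p l hp =>
    simp only [map_mul, Derivation.leibniz, hp, smul_eq_mul, map_add, add_smul, Finset.sum_add_distrib, dh_X,
      MvPolynomial.pderiv_X, Finset.smul_sum, mul_smul]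
    congr 1
    rw [Finset.sum_eq_single l]
    · simp
    · intro j _ hj; simp [hj.symm]
    · simp

theorem dh_dP (i : Fin (N + 1)) (f : X.Fi) (β : Fin (n + 1) → Fin (N + 1)) :
    dh X i (dP X f β) = (blk X.eqv (selR _ β) ((JP X f).map (dh X i))).det := by
  rw [dP, AlgHom.map_det, AlgHom.mapMatrix_apply, MP, blk_map, selR_map _ _ (map_zero _) (map_one _)]

theorem kae_rel {i : Fin (N + 1)} (hi : (MvPolynomial.X i : HomCoordRing N) ∉ X.I) (f : X.Fi) (a : Fin X.c) :
    ∑ j, (JP X f).map (dh X i) a j • dd X (fnRatio X.I i j) = 0 := by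
  have := dd_dh (X := X) i (X.F (f a))
  rw [dh_of_mem hi (X.mem _), map_zero] at this
  exact this.symm

theorem kae_zero {i : Fin (N + 1)} (hi : (MvPolynomial.X i : HomCoordRing N) ∉ X.I) : dd X (fnRatio X.I i i) = 0 := by
  rw [ratio_self hi, Derivation.map_one_eq_zero]

/-- combinations of the `d w_l` with coefficients in `O` -/
def KS (X : Geo N n) [X.I.IsPrime] (y : Cn (N + 1)) (β : Fin (n + 1) → Fin (N + 1)) (ω : Ω[FnField X.I⁄ℂ]) : Prop :=
  ∃ c : Fin n → FnField X.I, (∀ l, c l ∈ O X y) ∧ ω = ∑ l, c l • dd X (w X β l)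

theorem KS.zero : KS X y β 0 := ⟨0, fun _ => zero_mem _, by simp⟩

theorem KS.add {ω ω'} (h : KS X y β ω) (h' : KS X y β ω') : KS X y β (ω + ω') := by
  obtain ⟨c, hc, rfl⟩ := h
  obtain ⟨c', hc', rfl⟩ := h'
  exact ⟨c + c', fun l => add_mem (hc l) (hc' l), by simp [add_smul, Finset.sum_add_distrib]⟩

theorem KS.smul {ω} {a : FnField X.I} (ha : a ∈ O X y) (h : KS X y β ω) : KS X y β (a • ω) := by
  obtain ⟨c, hc, rfl⟩ := h
  exact ⟨fun l => a * c l, fun l => mul_mem ha (hc l), by simp [Finset.smul_sum, mul_smul]⟩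

theorem KS.sum {ι : Type} (s : Finset ι) {ω : ι → _} (h : ∀ i, KS X y β (ω i)) : KS X y β (∑ i ∈ s, ω i) :=
  Finset.sum_induction _ _ (fun _ _ => KS.add) KS.zero fun i _ => h i

theorem ks_ratio (h : GdAt X y f β) (j : Fin (N + 1)) : KS X y β (dd X (fnRatio X.I (β 0) j)) := by
  have h1 := det_smul_eq X.eqv β ((JP X f).map (dh X (β 0))) (fun j => dd X (fnRatio X.I (β 0) j))
    (kae_rel h.gd.x f) (kae_zero h.gd.x) j
  have h2 : blk X.eqv (selR _ β) ((JP X f).map (dh X (β 0))) = (dh X (β 0)).mapMatrix (MP X f β) := by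
    rw [AlgHom.mapMatrix_apply, MP, blk_map, selR_map _ _ (map_zero _) (map_one _)]
  rw [← dh_dP, h2, ← AlgHom.map_adjugate] at h1
  have h3 := dh_ne h.gd.x (dP_hom X f β) h.gd.d
  rw [← inv_smul_smul₀ h3 (dd X (fnRatio X.I (β 0) j)), h1]
  exact KS.smul (inv_dh_mem_O h.mem h.x (dP_hom X f β) (by rw [ev_dP]; exact h.d))
    ⟨_, fun l => dh_mem_O h.mem h.x _, rfl⟩

theorem ks_dh (h : GdAt X y f β) (G : HomCoordRing N) : KS X y β (dd X (dh X (β 0) G)) := by
  rw [dd_dh]
  exact KS.sum _ fun j => (ks_ratio h j).smul (dh_mem_O h.mem h.x _)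

/-- For the ratios `x_j / x_{β 0}`: `det_smul_eq` over `K` (`dd_dh`, `dh_of_mem` for `F (f i)`), the adjugate is `dh` of the
polynomial adjugate (`AlgHom.map_adjugate`), `inv_dh_mem_O` for `dP`.  Then `dd_dh`, and `a = dh G * (dh H)⁻¹` (`rep_iff`,
`Derivation.leibniz_inv`/differentiate `a * dh H = dh G`).  (The set of such differentials is the span over the subalgebra `O`.) -/
theorem dd_mem (h : GdAt X y f β) {a : FnField X.I} (ha : a ∈ O X y) :
    ∃ c : Fin n → FnField X.I, (∀ l, c l ∈ O X y) ∧ dd X a = ∑ l, c l • dd X (w X β l) := by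
  obtain ⟨k, G, H, hG, hH, h0, e⟩ := id ha
  have e' := (rep_iff h.gd.x hG hH).1 e
  have hH0 := dh_ne h.gd.x hH fun hI => h0 (ev_eq_zero h.mem hI)
  have h1 := congrArg (dd X) e'
  rw [Derivation.leibniz] at h1
  have h2 : dd X a = (dh X (β 0) H)⁻¹ • (dd X (dh X (β 0) G) + (-a) • dd X (dh X (β 0) H)) := by
    rw [← h1, neg_smul, add_comm (a • _), add_neg_cancel_right, inv_smul_smul₀ hH0]
  rw [h2]
  exact KS.smul (inv_dh_mem_O h.mem h.x hH h0) ((ks_dh h G).add ((ks_dh h H).smul (neg_mem ha)))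

/-- `wedge_sum`; determinants of matrices with entries in `O` are in `O` -/
theorem wedgeD_eq (h : GdAt X y f β) {a : Fin n → FnField X.I} (ha : ∀ l, a l ∈ O X y) :
    ∃ c ∈ O X y, wedgeD X.I n a = c • om X β := by
  choose c hc e using fun l => dd_mem h (ha l)
  refine ⟨(Matrix.of c).det, ?_, ?_⟩
  · rw [Matrix.det_apply']
    exact sum_mem fun σ _ => mul_mem (intCast_mem _ _) (prod_mem fun l _ => hc _ _)
  · have := wedge_sum (K := FnField X.I) (fun l => dd X (w X β l)) (Matrix.of c)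
    refine Eq.trans ?_ this
    exact congrArg (exteriorPower.ιMulti (FnField X.I) n) (funext e)

/-- `MultilinearMap.map_smul_univ` -/
theorem symbol_eq (h : GdAt X y f β) {m : ℕ} {a : Fin m → Fin n → FnField X.I} (ha : ∀ k l, a k l ∈ O X y) :
    ∃ c ∈ O X y, pluriSymbol X.I n m a = c • th X m β := by
  choose c hc e using fun k => wedgeD_eq h (ha k)
  refine ⟨∏ k, c k, prod_mem fun k _ => hc k, ?_⟩
  rw [pluriSymbol, funext e]
  exact MultilinearMap.map_smul_univ _ _ _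

theorem th_ne (h : Gd X f β) (m : ℕ) : th X m β ≠ 0 :=
  tprod_ne (K := FnField X.I) (x := om X β) (wedge_ne (indep h)) m

theorem mem_van (h : GdAt X y f β) {m : ℕ} {σ : PluriForms X.I n m} :
    σ ∈ vanishingSections X.I n m y.ofLp ↔ ∃ u ∈ M1 X y, σ = u • th X m β := by
  constructor
  · intro hσ
    induction hσ using Submodule.span_induction with
    | mem x hx =>
      obtain ⟨c, a, hc, ha, rfl⟩ := hx
      obtain ⟨c', hc', e⟩ := symbol_eq h ha
      exact ⟨c' * c, M1.mul hc' hc, by rw [e, smul_smul, mul_comm]⟩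
    | zero => exact ⟨0, M1.zero, by simp⟩
    | add x x' _ _ hx hx' =>
      obtain ⟨u, hu, rfl⟩ := hx
      obtain ⟨u', hu', rfl⟩ := hx'
      exact ⟨u + u', M1.add hu hu', by rw [add_smul]⟩
    | smul t x _ hx =>
      obtain ⟨u, hu, rfl⟩ := hx
      exact ⟨algebraMap ℂ _ t * u, M1.mul (Subalgebra.algebraMap_mem _ t) hu, by
        rw [mul_smul, algebraMap_smul]⟩
  · rintro ⟨u, hu, rfl⟩
    exact Submodule.subset_span ⟨u, _, hu, fun k l => ratio_mem_O h.mem h.x _, rfl⟩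

theorem smul_mem_van (h : GdAt X y f β) {m : ℕ} {u : FnField X.I} :
    u • th X m β ∈ vanishingSections X.I n m y.ofLp ↔ u ∈ M1 X y := by
  rw [mem_van h]
  refine ⟨?_, fun hu => ⟨u, hu, rfl⟩⟩
  rintro ⟨u', hu, e⟩
  rwa [smul_left_injective _ (th_ne h.gd m) e]

theorem mem_van2 (h : GdAt X y f β) {m : ℕ} {u : FnField X.I} (hu : u ∈ M2 X y) :
    u • th X m β ∈ vanishingSections2 X.I n m y.ofLp := by
  induction hu using Submodule.span_induction with
  | mem x hx =>
    obtain ⟨c, hc, c', hc', rfl⟩ := hx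
    exact Submodule.subset_span ⟨c, c', _, hc, hc', fun k l => ratio_mem_O h.mem h.x _, rfl⟩
  | zero => simp
  | add x x' _ _ hx hx' => rw [add_smul]; exact add_mem hx hx'
  | smul t x _ hx => rw [smul_assoc]; exact Submodule.smul_mem _ _ hx

/-- `wedge_blk` and `det_blk_change` with `r = fnRatio (β₀ 0)`, `dr j = dd (r j)`, `J = (JP f₀).map (dh (β₀ 0))`; `J r = 0` is Euler's
identity (`IsHomogeneous.sum_X_mul_pderiv`); `w β l = r (β l.succ) / r (β 0)` (`ratio_div`). -/
theorem om_change {f₀ : X.Fi} {β₀ : Fin (n + 1) → Fin (N + 1)} (h₀ : Gd X f₀ β₀)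
    (hβ : (MvPolynomial.X (β 0) : HomCoordRing N) ∉ X.I) :
    om X β = (dh X (β₀ 0) (dP X f₀ β) / (dh X (β₀ 0) (dP X f₀ β₀) * fnRatio X.I (β₀ 0) (β 0) ^ (n + 1))) • om X β₀ := by
  set r := fnRatio X.I (β₀ 0) with hr
  have hr0 : r (β 0) ≠ 0 := ratio_ne h₀.x hβ
  have hd := dh_ne h₀.x (dP_hom X f₀ β₀) h₀.d
  have hJ : (JP X f₀).map (dh X (β₀ 0)) *ᵥ r = 0 := by
    funext a
    have h1 := congrArg (dh X (β₀ 0)) (X.hom (f₀ a)).sum_X_mul_pderiv
    rw [map_nsmul, dh_of_mem h₀.x (X.mem _), smul_zero, map_sum] at h1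
    rw [Pi.zero_apply, ← h1, mulVec, dotProduct]
    refine Finset.sum_congr rfl fun j _ => ?_
    rw [map_mul, dh_X, mul_comm]; rfl
  have h1 := wedge_blk X.eqv β₀ ((JP X f₀).map (dh X (β₀ 0))) (fun j => dd X (r j)) (kae_rel h₀.x f₀) (kae_zero h₀.x)
    (by rw [← dh_dP]; exact hd) fun l : Fin n => (r (β 0))⁻¹ • Pi.single (β l.succ) 1 -
        (r (β l.succ) / r (β 0) ^ 2) • Pi.single (β 0) 1
  rw [det_blk_change X.eqv β _ r hJ (ratio_self h₀.x) hr0, ← dh_dP, ← dh_dP] at h1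
  have h2 : ∀ l : Fin n, ∑ j, ((r (β 0))⁻¹ • Pi.single (β l.succ) (1 : FnField X.I) -
      (r (β l.succ) / r (β 0) ^ 2) • Pi.single (β 0) (1 : FnField X.I) : Fin (N + 1) → FnField X.I) j • dd X (r j) =
      dd X (w X β l) := by
    intro l
    simp only [Pi.sub_apply, Pi.smul_apply, sub_smul, Finset.sum_sub_distrib, smul_assoc, ← Finset.smul_sum,
      Pi.single_apply, ite_smul, one_smul, zero_smul, Finset.sum_ite_eq', Finset.mem_univ, if_true]
    rw [w, ratio_div h₀.x, Derivation.leibniz_div, smul_sub, smul_smul, smul_smul]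
    congr 2
    · change _ = (r (β 0))⁻¹ ^ 2 * r (β 0)
      field_simp
    · change _ = (r (β 0))⁻¹ ^ 2 * r (β l.succ)
      field_simp
  rw [funext h2] at h1
  have h3 : dh X (β₀ 0) (dP X f₀ β₀) • om X β = (dh X (β₀ 0) (dP X f₀ β) / r (β 0) ^ (n + 1)) • om X β₀ := h1
  rw [← inv_smul_smul₀ hd (om X β), h3, smul_smul]
  congr 1
  field_simp

theorem th_change {f₀ : X.Fi} {β₀ : Fin (n + 1) → Fin (N + 1)} (h₀ : Gd X f₀ β₀)
    (hβ : (MvPolynomial.X (β 0) : HomCoordRing N) ∉ X.I) (m : ℕ) :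
    th X m β = (dh X (β₀ 0) (dP X f₀ β) / (dh X (β₀ 0) (dP X f₀ β₀) * fnRatio X.I (β₀ 0) (β 0) ^ (n + 1))) ^ m •
      th X m β₀ := by
  have h := om_change h₀ hβ
  change PiTensorProduct.tprod _ (fun _ : Fin m => om X β) = _
  rw [h, MultilinearMap.map_smul_univ, Finset.prod_const, Finset.card_univ, Fintype.card_fin]
  rfl

end Crest.Agent.R269.G
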