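import Crest.Agent.R269.G.Basic

/-! # Row 269, block G: local rings -/

set_option autoImplicit false
set_option linter.unusedSectionVars false
set_option linter.unusedVariables false

noncomputable section

namespace Crest.Agent.R269.G

open Set Filter Topology Matrix
open Crest.AlgGeometry.ProjEmb

variable {N n : ℕ} {X : Geo N n} [X.I.IsPrime] {y : Cn (N + 1)}

theorem M1.mem_O {u : FnField X.I} (h : u ∈ M1 X y) : u ∈ O X y := by
  obtain ⟨k, G, H, hG, hH, h0, -, h⟩ := h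
  exact ⟨k, G, H, hG, hH, h0, h⟩

theorem M1.zero : (0 : FnField X.I) ∈ M1 X y := by
  refine ⟨0, 0, 1, MvPolynomial.isHomogeneous_zero _ _ _, MvPolynomial.isHomogeneous_one _ _, by simp, by simp, ?_⟩
  simp only [ce_eq, toC_eq, map_zero, zero_mul]

theorem M1.add {u u' : FnField X.I} (h : u ∈ M1 X y) (h' : u' ∈ M1 X y) : u + u' ∈ M1 X y := by
  obtain ⟨k, G, H, hG, hH, h0, h1, h⟩ := h
  obtain ⟨k', G', H', hG', hH', h0', h1', h'⟩ := h'
  refine ⟨k + k', G * H' + H * G', H * H', (hG.mul hH').add (hH.mul hG'), hH.mul hH', by simp [h0, h0'],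
    by simp [h1, h1'], ?_⟩
  simp only [ce_eq, toC_eq, map_mul, map_add] at h h' ⊢
  rw [← h, ← h']; ring

theorem M1.mul {a u : FnField X.I} (ha : a ∈ O X y) (h : u ∈ M1 X y) : a * u ∈ M1 X y := by
  obtain ⟨k, G, H, hG, hH, h0, ha⟩ := ha
  obtain ⟨k', G', H', hG', hH', h0', h1', h'⟩ := h
  refine ⟨k + k', G * G', H * H', hG.mul hG', hH.mul hH', by simp [h0, h0'], by simp [h1'], ?_⟩
  simp only [ce_eq, toC_eq, map_mul] at ha h' ⊢
  rw [← ha, ← h']; ring

theorem M2.mul {a u : FnField X.I} (ha : a ∈ O X y) (h : u ∈ M2 X y) : a * u ∈ M2 X y := by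
  induction h using Submodule.span_induction with
  | mem u hu =>
    obtain ⟨c, hc, c', hc', rfl⟩ := hu
    exact Submodule.subset_span ⟨a * c, M1.mul ha hc, c', hc', (mul_assoc _ _ _).symm⟩
  | zero => simp
  | add u u' _ _ h h' => rw [mul_add]; exact add_mem h h'
  | smul c u _ h => rw [mul_smul_comm]; exact Submodule.smul_mem _ c h

/-- two presentations: `G H' - G' H ∈ I` vanishes at `y` -/
theorem mem_M1_iff (hy : y ∈ X.Y) {k : ℕ} {G H : HomCoordRing N} (hG : G.IsHomogeneous k) (hH : H.IsHomogeneous k)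
    (h0 : ev H y ≠ 0) {u : FnField X.I} (h : toC X u * ce X H = ce X G) : u ∈ M1 X y ↔ ev G y = 0 := by
  refine ⟨?_, fun h1 => ⟨k, G, H, hG, hH, h0, h1, h⟩⟩
  rintro ⟨k', G', H', -, -, h0', h1', h'⟩
  simp only [ce_eq, toC_eq] at h'
  have h2 : G * H' - G' * H ∈ X.I := ce_eq_zero.1 (by simp only [map_sub, map_mul, ← h, ← h']; ring)
  have h3 := ev_eq_zero hy h2
  simp only [ev, map_sub, map_mul, h1', zero_mul, sub_zero] at h3
  exact (mul_eq_zero.1 h3).resolve_right h0'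

theorem ratio_mem_O (hy : y ∈ X.Y) {i : Fin (N + 1)} (hi : y i ≠ 0) (j : Fin (N + 1)) : fnRatio X.I i j ∈ O X y := by
  refine ⟨1, MvPolynomial.X j, MvPolynomial.X i, MvPolynomial.isHomogeneous_X _ _, MvPolynomial.isHomogeneous_X _ _,
    by simpa using hi, ?_⟩
  rw [ce_eq, ce_eq, toC_eq, toC_ratio, div_mul_cancel₀ _ (mt ce_eq_zero.1 (X_notMem hy hi))]

theorem dh_mem_O (hy : y ∈ X.Y) {i : Fin (N + 1)} (hi : y i ≠ 0) (G : HomCoordRing N) : dh X i G ∈ O X y := by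
  refine (Algebra.adjoin_le ?_ : chartRing X.I i ≤ O X y) (dh_mem_chart i G)
  rintro _ ⟨j, rfl⟩
  exact ratio_mem_O hy hi j

/-- `(dh i H)⁻¹ = x_i ^ k / H` -/
theorem inv_dh_mem_O (hy : y ∈ X.Y) {i : Fin (N + 1)} (hi : y i ≠ 0) {H : HomCoordRing N} {k : ℕ}
    (hH : H.IsHomogeneous k) (h0 : ev H y ≠ 0) : (dh X i H)⁻¹ ∈ O X y := by
  have hi' := X_notMem hy hi
  have hd : dh X i H ≠ 0 := dh_ne hi' hH fun h => h0 (ev_eq_zero hy h)
  refine ⟨k, MvPolynomial.X i ^ k, H, MvPolynomial.isHomogeneous_X_pow _ _, hH, h0, ?_⟩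
  rw [ce_eq, ce_eq, toC_eq, ← toC_dh hi' hH, ← mul_assoc, ← map_mul, inv_mul_cancel₀ hd, map_one, one_mul, map_pow]

/-- `G = ∑ (x_j - y_j / y_i) G_j` (the kernel of `eval` is spanned by the `X j - C _`), and
`x_j / x_i - y_j / y_i = (y_i x_j - y_j x_i) / (y_i x_i)` -/
theorem dh_mem_M1 (hy : y ∈ X.Y) {i : Fin (N + 1)} (hi : y i ≠ 0) {G : HomCoordRing N}
    (h0 : ev G ((y i)⁻¹ • y) = 0) : dh X i G ∈ M1 X y := by
  have hr : ∀ j, fnRatio X.I i j - algebraMap ℂ _ ((y i)⁻¹ * y j) ∈ M1 X y := fun j => by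
    refine ⟨1, MvPolynomial.X j - MvPolynomial.C ((y i)⁻¹ * y j) * MvPolynomial.X i, MvPolynomial.X i,
      (MvPolynomial.isHomogeneous_X _ _).sub ((MvPolynomial.isHomogeneous_X _ _).C_mul _),
      MvPolynomial.isHomogeneous_X _ _, by simpa using hi, by simp; field_simp; ring, ?_⟩
    rw [ce_eq, ce_eq, toC_eq, map_sub, map_sub, map_mul (ce X), sub_mul, toC_ratio,
      div_mul_cancel₀ _ (mt ce_eq_zero.1 (X_notMem hy hi)), AlgHom.commutes, ← MvPolynomial.algebraMap_eq,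
      AlgHom.commutes]
  have key : ∀ G : HomCoordRing N, dh X i G - algebraMap ℂ _ (ev G ((y i)⁻¹ • y)) ∈ M1 X y := fun G => by
    induction G using MvPolynomial.induction_on with
    | C a => simpa [dh, ev] using M1.zero
    | add p q hp hq =>
      convert M1.add hp hq using 1
      simp only [ev, map_add]; ring
    | mul_X p j hp =>
      convert M1.add (M1.mul (ratio_mem_O hy hi j) hp)
        (M1.mul ((O X y).algebraMap_mem (ev p ((y i)⁻¹ • y))) (hr j)) using 1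
      simp only [ev, map_mul, dh_X, MvPolynomial.eval_X, WithLp.ofLp_smul, Pi.smul_apply, smul_eq_mul]; ring
  simpa [h0] using key G

theorem Germ.mem_O {u : FnField X.I} {h : Cn (N + 1) → ℂ} (hu : Germ X y u h) : u ∈ O X y := by
  obtain ⟨k, G, H, hG, hH, h0, h, -⟩ := hu
  exact ⟨k, G, H, hG, hH, h0, h⟩

theorem Germ.mem_M1 (hy : y ∈ X.Y) {u : FnField X.I} {h : Cn (N + 1) → ℂ} (hu : Germ X y u h) :
    u ∈ M1 X y ↔ h y = 0 := by
  obtain ⟨k, G, H, hG, hH, h0, h1, h2⟩ := hu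
  rw [mem_M1_iff hy hG hH h0 h1, ← h2.self_of_nhdsWithin hy, mul_eq_zero, or_iff_left h0]

end Crest.Agent.R269.G
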